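import Vale.Agent.P112.H8.GridQ
import Vale.Agent.P112.H30.JN

/-!
# Popular scales (John-Nirenberg with balls instead of dyadic intervals)

`E k` measurable sets of reals, `E k` and `E k'` disjoint for `k + w ≤ k'`. The scale `k` is popular
at `x` if `E k` has density `≥ κ` in the ball of radius `2 ^ (-k)`. The number of popular scales is
exponentially integrable.
-/

open MeasureTheory Set
open scoped ENNReal

namespace Vale.Agent.P112.H566

open Vale.Agent.P112.T Vale.Agent.P112.H8 Vale.Agent.P112.H30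

/-- the cells of the grid `τ` -/
def cel (τ : ℝ) (i : ℕ) (m : ℤ) : Set ℝ := {x | q τ i x = m}

theorem cel_meas (τ : ℝ) (i : ℕ) (m : ℤ) : MeasurableSet (cel τ i m) := by
  rw [cel, q_cell]; exact measurableSet_Ico

theorem cel_vol (τ : ℝ) (i : ℕ) (m : ℤ) : volume (cel τ i m) = ENNReal.ofReal ((1/2)^i) :=
  q_vol τ i m

theorem q_nest_le (τ : ℝ) {i j : ℕ} (h : i ≤ j) {x x' : ℝ} (hx : q τ j x = q τ j x') :
    q τ i x = q τ i x' := by
  induction j, h using Nat.le_induction with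
  | base => exact hx
  | succ j _ ih => exact ih (q_nest τ j x x' hx)

theorem cel_nd (τ : ℝ) (i j : ℕ) (m m' : ℤ) : Nd (cel τ i m) (cel τ j m') := by
  by_cases hd : Disjoint (cel τ i m) (cel τ j m')
  · exact Or.inr (Or.inr hd)
  obtain ⟨x, hx, hx'⟩ := Set.not_disjoint_iff.1 hd
  rcases le_total i j with h | h
  · refine Or.inr (Or.inl fun y hy => ?_)
    show q τ i y = m
    have h1 : q τ j y = q τ j x := by
      have e1 : q τ j y = m' := hy
      have e2 : q τ j x = m' := hx'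
      rw [e1, e2]
    rw [q_nest_le τ h h1]; exact hx
  · refine Or.inl fun y hy => ?_
    show q τ j y = m'
    have h1 : q τ i y = q τ i x := by
      have e1 : q τ i y = m := hy
      have e2 : q τ i x = m := hx
      rw [e1, e2]
    rw [q_nest_le τ h h1]; exact hx'

theorem near_int {a b : ℝ} (hab : |a - b| ≤ 1/8) (hne : ⌊a⌋ ≠ ⌊b⌋) : ∃ m : ℤ, |a - m| ≤ 1/8 := by
  rw [abs_le] at hab
  rcases lt_or_gt_of_ne hne with h | h
  · refine ⟨⌊b⌋, ?_⟩
    have h1 : a < ⌊a⌋ + 1 := Int.lt_floor_add_one a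
    have h2 : (⌊b⌋ : ℝ) ≤ b := Int.floor_le b
    have h3 : (⌊a⌋ : ℝ) + 1 ≤ ⌊b⌋ := by exact_mod_cast h
    rw [abs_le]; constructor <;> linarith
  · refine ⟨⌊a⌋, ?_⟩
    have h1 : b < ⌊b⌋ + 1 := Int.lt_floor_add_one b
    have h2 : (⌊a⌋ : ℝ) ≤ a := Int.floor_le a
    have h3 : (⌊b⌋ : ℝ) + 1 ≤ ⌊a⌋ := by exact_mod_cast h
    rw [abs_le]; constructor <;> linarith

/-- one of the two grids -/
noncomputable def tau (b : Bool) : ℝ := if b then 1/3 else 0

theorem two_grids (i : ℕ) (x : ℝ) {r : ℝ} (hr : r ≤ (1/2)^i / 8) :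
    ∃ b : Bool, Icc (x - r) (x + r) ⊆ cel (tau b) i (q (tau b) i x) := by
  have hp : (0:ℝ) < 2^i := by positivity
  by_contra hcon
  push Not at hcon
  have key : ∀ b : Bool, ∃ m : ℤ, |2^i * (x - tau b) - m| ≤ 1/8 := by
    intro b
    obtain ⟨y, hy, hne⟩ := Set.not_subset.1 (hcon b)
    have hne' : ⌊2^i * (x - tau b)⌋ ≠ ⌊2^i * (y - tau b)⌋ := by
      intro h; exact hne h.symm
    refine near_int ?_ hne'
    have e : 2^i * (x - tau b) - 2^i * (y - tau b) = 2^i * (x - y) := by ring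
    rw [e, abs_mul, abs_of_pos hp]
    have h1 : |x - y| ≤ r := by
      rw [abs_le]; constructor <;> linarith [hy.1, hy.2]
    calc 2^i * |x - y| ≤ 2^i * ((1/2)^i / 8) := by gcongr; exact h1.trans hr
      _ = 1/8 := by rw [one_div, inv_pow]; field_simp
  obtain ⟨m, hm⟩ := key false
  obtain ⟨m', hm'⟩ := key true
  simp only [tau, Bool.false_eq_true, if_false, if_true, sub_zero] at hm hm'
  rw [abs_le] at hm hm'
  have h1 : |(2:ℝ)^i - 3 * ((m:ℝ) - m')| ≤ 3/4 := by
    rw [abs_le]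
    have e : (2:ℝ)^i - 3 * ((m:ℝ) - m') = 3 * ((2^i * x - m) - (2^i * (x - 1/3) - m')) := by ring
    rw [e]; constructor <;> nlinarith [hm.1, hm.2, hm'.1, hm'.2]
  have h2 : |(2^i - 3 * (m - m') : ℤ)| < 1 := by
    have : ((|(2^i - 3 * (m - m') : ℤ)| : ℤ) : ℝ) < 1 := by
      push_cast
      linarith
    exact_mod_cast this
  have h3 : (2^i - 3 * (m - m') : ℤ) = 0 := Int.abs_lt_one_iff.1 h2
  have h4 : (3:ℤ) ∣ 2^i := ⟨m - m', by linarith⟩
  have h5 : (3:ℤ) ∣ 2 := Int.Prime.dvd_pow' Nat.prime_three (by exact_mod_cast h4)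
  norm_num at h5

/-- the scale `k` is popular at `x` -/
def Pop (E : ℕ → Set ℝ) (κ : ℝ) (k : ℕ) (x : ℝ) : Prop :=
  ENNReal.ofReal (κ * (1/2)^k) ≤ volume (E k ∩ Icc (x - (1/2)^k) (x + (1/2)^k))

open Classical in
/-- the popular scales of `x` in `[k0, n)` -/
noncomputable def pops (E : ℕ → Set ℝ) (κ : ℝ) (k0 n : ℕ) (x : ℝ) : Finset ℕ :=
  (Finset.Ico k0 n).filter (fun k => Pop E κ k x)

/-- **John-Nirenberg for popular scales.** -/
theorem jn_pop {E : ℕ → Set ℝ} (hE : ∀ k, MeasurableSet (E k)) {w : ℕ} (hw : 0 < w)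
    (hdis : ∀ k k', k + w ≤ k' → Disjoint (E k) (E k')) {κ : ℝ} {K : ℕ} (hK0 : 0 < K)
    (hK : 16 ≤ κ * K) {k0 n : ℕ} (hk0 : 3 ≤ k0) (a b : ℝ) (m : ℕ) :
    volume {x ∈ Icc a b | m ≤ (pops E κ k0 n x).card} ≤
      2 * w * (1/2)^(m/(2*w)/K) * volume (Icc (a - 8*(1/2)^k0) (b + 8*(1/2)^k0)) := by
  classical
  set T : Set ℝ := Icc (a - 8*(1/2)^k0) (b + 8*(1/2)^k0) with hT
  set qq : ℕ := m/(2*w) with hqq
  -- the data of one grid and one residue
  let B : ℕ → Finset ℕ := fun ρ => (Finset.Ico k0 n).filter (fun k => k % w = ρ)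
  let I : Bool → ℕ × ℤ → Set ℝ := fun g p => cel (tau g) p.1 p.2
  let P : Bool → ℕ → Finset (ℕ × ℤ) := fun g k =>
    ((Finset.Icc ⌈(a - 8*(1/2)^k0 - tau g) * 2^(k-3)⌉ ⌊(b + 8*(1/2)^k0 - tau g) * 2^(k-3)⌋).filter
      (fun m' => ENNReal.ofReal (κ/8) * volume (cel (tau g) (k-3) m') ≤
        volume (E k ∩ cel (tau g) (k-3) m'))).image (fun m' => (k-3, m'))
  have hone : ∀ (g : Bool) (ρ : ℕ), volume {x ∈ T | qq ≤ cntI (B ρ) (P g) (I g) T x} ≤
      (1/2)^(qq/K) * volume T := by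
    intro g ρ
    refine jn_idx (μ := volume) (B ρ) (P g) (I g) E (κ/8) ?_ ?_ (fun k _ => hE k) ?_ ?_ K hK0
      (by linarith) qq T measurableSet_Icc
    · intro k _ k' _ J _ J' _
      exact cel_nd _ _ _ _ _
    · intro k _ J _
      exact cel_meas _ _ _
    · intro k hk k' hk' hne
      have h1 : k % w = ρ := (Finset.mem_filter.1 hk).2
      have h2 : k' % w = ρ := (Finset.mem_filter.1 hk').2
      rcases lt_or_gt_of_ne hne with h | h
      · refine hdis k k' ?_
        have h3 : w ∣ k' - k := (Nat.modEq_iff_dvd' h.le).1 (h1.trans h2.symm)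
        have h4 : w ≤ k' - k := Nat.le_of_dvd (by omega) h3
        omega
      · refine (hdis k' k ?_).symm
        have h3 : w ∣ k - k' := (Nat.modEq_iff_dvd' h.le).1 (h2.trans h1.symm)
        have h4 : w ≤ k - k' := Nat.le_of_dvd (by omega) h3
        omega
    · intro k _ J hJ
      obtain ⟨m', hm', rfl⟩ := Finset.mem_image.1 hJ
      exact (Finset.mem_filter.1 hm').2
  -- every popular scale is counted
  have hcount : ∀ x ∈ Icc a b, (pops E κ k0 n x).card ≤
      ∑ g : Bool, ∑ ρ ∈ Finset.range w, cntI (B ρ) (P g) (I g) T x := by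
    intro x hx
    have hsub : pops E κ k0 n x ⊆ (Finset.univ : Finset Bool).biUnion (fun g =>
        (Finset.range w).biUnion (fun ρ =>
          (B ρ).filter (fun b => ∃ J ∈ P g b, I g J ⊆ T ∧ x ∈ I g J))) := by
      intro k hk
      obtain ⟨hk1, hk2⟩ := Finset.mem_filter.1 hk
      rw [Finset.mem_Ico] at hk1
      have hk3 : 3 ≤ k := hk0.trans hk1.1
      have e8 : ((1:ℝ)/2)^(k-3) = 8 * (1/2)^k := by
        obtain ⟨d, rfl⟩ : ∃ d, k = d + 3 := ⟨k - 3, by omega⟩
        rw [Nat.add_sub_cancel, pow_add]; ring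
      obtain ⟨g, hg⟩ := two_grids (k-3) x (r := (1/2)^k) (by rw [e8]; linarith)
      have hpk : ((1:ℝ)/2)^k ≤ (1/2)^k0 :=
        pow_le_pow_of_le_one (by norm_num) (by norm_num) hk1.1
      have hxc : x ∈ cel (tau g) (k-3) (q (tau g) (k-3) x) := rfl
      have hcT : cel (tau g) (k-3) (q (tau g) (k-3) x) ⊆ T := by
        have h1 := q_cell (tau g) (k-3) (q (tau g) (k-3) x)
        have h2 : cel (tau g) (k-3) (q (tau g) (k-3) x) = _ := h1
        rw [h2] at hxc ⊢
        have h3 : ((q (tau g) (k-3) x : ℝ) + 1) / 2^(k-3) =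
            (q (tau g) (k-3) x : ℝ) / 2^(k-3) + (1/2)^(k-3) := by
          rw [one_div, inv_pow]; field_simp
        rw [h3, e8] at hxc ⊢
        intro y hy
        rw [mem_Ico] at hxc hy
        rw [hT, mem_Icc]
        constructor <;> linarith [hx.1, hx.2, hxc.1, hxc.2, hy.1, hy.2]
      refine Finset.mem_biUnion.2 ⟨g, Finset.mem_univ _, Finset.mem_biUnion.2
        ⟨k % w, Finset.mem_range.2 (Nat.mod_lt _ hw), Finset.mem_filter.2
        ⟨Finset.mem_filter.2 ⟨Finset.mem_Ico.2 hk1, rfl⟩, (k-3, q (tau g) (k-3) x), ?_, hcT, hxc⟩⟩⟩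
      refine Finset.mem_image.2 ⟨q (tau g) (k-3) x, Finset.mem_filter.2 ⟨?_, ?_⟩, rfl⟩
      · have hp : (0:ℝ) < 2^(k-3) := by positivity
        have h1 : cel (tau g) (k-3) (q (tau g) (k-3) x) = _ :=
          q_cell (tau g) (k-3) (q (tau g) (k-3) x)
        have h2 : tau g + (q (tau g) (k-3) x : ℝ) / 2^(k-3) ∈ T := by
          apply hcT
          rw [h1, mem_Ico]
          refine ⟨le_rfl, ?_⟩
          have : (q (tau g) (k-3) x : ℝ) / 2^(k-3) < ((q (tau g) (k-3) x : ℝ) + 1) / 2^(k-3) := by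
            gcongr; linarith
          linarith
        rw [hT, mem_Icc] at h2
        rw [Finset.mem_Icc]
        constructor
        · rw [Int.ceil_le]
          have : a - 8*(1/2)^k0 - tau g ≤ (q (tau g) (k-3) x : ℝ) / 2^(k-3) := by linarith [h2.1]
          rwa [le_div_iff₀ hp] at this
        · rw [Int.le_floor]
          have : (q (tau g) (k-3) x : ℝ) / 2^(k-3) ≤ b + 8*(1/2)^k0 - tau g := by linarith [h2.2]
          rwa [div_le_iff₀ hp] at this
      · rw [cel_vol, e8, ← ENNReal.ofReal_mul' (by positivity)]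
        have e : κ / 8 * (8 * (1/2)^k) = κ * (1/2)^k := by ring
        rw [e]
        refine le_trans hk2 (measure_mono ?_)
        exact inter_subset_inter_right _ hg
    refine (Finset.card_le_card hsub).trans ?_
    refine Finset.card_biUnion_le.trans (Finset.sum_le_sum fun g _ => ?_)
    exact Finset.card_biUnion_le
  have hIT : Icc a b ⊆ T := by
    intro x hx
    have : (0:ℝ) ≤ (1/2)^k0 := by positivity
    rw [hT, mem_Icc]; constructor <;> linarith [hx.1, hx.2]
  have hcover : {x ∈ Icc a b | m ≤ (pops E κ k0 n x).card} ⊆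
      ⋃ g ∈ (Finset.univ : Finset Bool), ⋃ ρ ∈ Finset.range w,
        {x ∈ T | qq ≤ cntI (B ρ) (P g) (I g) T x} := by
    rintro x ⟨hx, hm⟩
    by_contra hcon
    simp only [Set.mem_iUnion, not_exists] at hcon
    have hlt : ∀ g : Bool, ∀ ρ ∈ Finset.range w, cntI (B ρ) (P g) (I g) T x < qq := by
      intro g ρ hρ
      by_contra h
      exact hcon g (Finset.mem_univ _) ρ hρ ⟨hIT hx, not_lt.1 h⟩
    have hq1 : 1 ≤ qq := by
      have := hlt true 0 (Finset.mem_range.2 hw); omega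
    have h1 : ∑ g : Bool, ∑ ρ ∈ Finset.range w, cntI (B ρ) (P g) (I g) T x ≤
        ∑ g : Bool, ∑ ρ ∈ Finset.range w, (qq - 1) :=
      Finset.sum_le_sum fun g _ => Finset.sum_le_sum fun ρ hρ => by
        have := hlt g ρ hρ; omega
    have h2 : ∑ g : Bool, ∑ ρ ∈ Finset.range w, (qq - 1) = 2 * w * (qq - 1) := by
      simp [mul_assoc]
    have h3 : 2 * w * qq ≤ m := by rw [hqq]; exact Nat.mul_div_le m (2*w)
    have h4 := hcount x hx
    have h5 : 2 * w * (qq - 1) < 2 * w * qq := by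
      apply Nat.mul_lt_mul_of_pos_left (by omega) (by omega)
    omega
  calc volume {x ∈ Icc a b | m ≤ (pops E κ k0 n x).card}
      ≤ volume (⋃ g ∈ (Finset.univ : Finset Bool), ⋃ ρ ∈ Finset.range w,
        {x ∈ T | qq ≤ cntI (B ρ) (P g) (I g) T x}) := measure_mono hcover
    _ ≤ ∑ g : Bool, volume (⋃ ρ ∈ Finset.range w,
        {x ∈ T | qq ≤ cntI (B ρ) (P g) (I g) T x}) := measure_biUnion_finset_le _ _
    _ ≤ ∑ g : Bool, ∑ ρ ∈ Finset.range w, volume
        {x ∈ T | qq ≤ cntI (B ρ) (P g) (I g) T x} :=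
        Finset.sum_le_sum fun g _ => measure_biUnion_finset_le _ _
    _ ≤ ∑ g : Bool, ∑ ρ ∈ Finset.range w, (1/2)^(qq/K) * volume T :=
        Finset.sum_le_sum fun g _ => Finset.sum_le_sum fun ρ _ => hone g ρ
    _ = 2 * w * (1/2)^(m/(2*w)/K) * volume T := by
        simp only [Finset.sum_const, Finset.card_range, Finset.card_univ, Fintype.card_bool,
          nsmul_eq_mul]
        push_cast
        ring

end Vale.Agent.P112.H566
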