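import Vale.Agent.P112.H566.DepthA
import Vale.Agent.P112.H818.Num
import Vale.Agent.P112.H818.Dep3

/-!
# P112, chapter (G), [DEPTH], packaging, part B (helper566): one-tile trees, rest, final theorem
-/

open MeasureTheory Set
open scoped ENNReal

set_option linter.dupNamespace false

noncomputable section

namespace Vale.Agent.P112.H566

open T H818

variable {F : R2.Tr} (G : R2.Cells F) {u : ℝ × ℝ → ℝ} {P : ℕ → Set (ℝ × ℝ)} {A H Q δ W Y ε : ℝ}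

/-- The one-tile trees of the colour `k`. -/
def Fk [Fintype (PT G Q H δ)] (Rest : Finset (PT G Q H δ)) {N : ℕ} (col : PT G Q H δ → Fin N)
    (k : Fin N) : R2.Tr where
  ι := {p : PT G Q H δ // p ∉ Rest ∧ col p = k}
  fin := Fintype.ofFinite _
  s p := F.s p.1.1.1
  c p := (DD G Q H δ).c p.1
  E p j := {z | j = p.1.1.2.1 ∧ z ∈ Et G Q H δ p.1.1}

/-- The rest. -/
def Rj (Rest : Finset (PT G Q H δ)) (j : ℕ) : Set (ℝ × ℝ) :=
  {z | ∃ p ∈ Rest, j = p.1.2.1 ∧ z ∈ Et G Q H δ p.1}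

theorem meet_of (hQ : 1 ≤ Q) {p p' : PT G Q H δ} {z z' : ℝ × ℝ}
    (hz : z ∈ Et G Q H δ p.1) (hz' : z' ∈ Et G Q H δ p'.1)
    (hx : |z.1 - z'.1| ≤ 4 / 2 ^ p'.1.2.1)
    (ho : |z.2 - (DD G Q H δ).ln p' z.1| ≤ 4 * Q) : (DD G Q H δ).Meet 0 (5 * Q) p p' := by
  refine ⟨z.1, Et_cell G hz, ?_, ?_⟩
  · have a2 : |z'.1 - (0 + p'.1.2.2.1 / 2 ^ p'.1.2.1)| ≤ 1 / 2 ^ p'.1.2.1 :=
      q_left (Et_cell G hz')
    show |z.1 - (0 + p'.1.2.2.1 / 2 ^ p'.1.2.1)| ≤ 5 / 2 ^ p'.1.2.1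
    have e : (5 : ℝ) / 2 ^ p'.1.2.1 = 4 / 2 ^ p'.1.2.1 + 1 / 2 ^ p'.1.2.1 := by
      rw [← add_div]; norm_num
    rw [e]
    rw [abs_le] at *
    constructor <;> linarith
  · have h1 := Et_line G hQ hz
    rw [← DD_off] at h1
    have e : (DD G Q H δ).ln p z.1 - (DD G Q H δ).ln p' z.1 =
      (z.2 - (DD G Q H δ).ln p' z.1) - (z.2 - (DD G Q H δ).ln p z.1) := by ring
    rw [e]
    rw [abs_le] at *
    constructor <;> linarith

theorem tile_uniq {p p' : PT G Q H δ} (hi : p.1.1 = p'.1.1) (hj : p.1.2.1 = p'.1.2.1)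
    {z : ℝ × ℝ} (hz : z ∈ Et G Q H δ p.1) (hz' : z ∈ Et G Q H δ p'.1) : p = p' := by
  have c1 := Et_cell G hz
  have c2 := Et_cell G hz'
  have o1 := Et_off G hz
  have o2 := Et_off G hz'
  rw [hj] at c1
  rw [hi] at o1
  exact PT_ext G hi hj (c1.symm.trans c2) (o1.symm.trans o2)

section

variable [Fintype (PT G Q H δ)] (Rest : Finset (PT G Q H δ)) {N : ℕ} (col : PT G Q H δ → Fin N)

theorem Fk_ok (hQ : 1 ≤ Q) (hF : F.Ok u P A (H / 2))
    (hsep : ∀ p p', p ∉ Rest → p' ∉ Rest → p ≠ p' → col p = col p' →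
      (DD G Q H δ).lv p' ≤ (DD G Q H δ).lv p → (DD G Q H δ).Meet 0 (5 * Q) p p' →
      Q * 2 ^ (DD G Q H δ).lv p ≤ |(DD G Q H δ).sl p - (DD G Q H δ).sl p'|) (k : Fin N) :
    (Fk G Rest col k).Ok u P A Q where
  meas := fun p j => (MeasurableSet.const _).inter (Et_meas G (by linarith) hF p.1.1)
  sub := by
    rintro p j z ⟨rfl, hz⟩
    exact hF.sub _ _ (Et_sub G hz)
  slope := by
    rintro p j z ⟨rfl, hz⟩
    exact hF.slope _ _ z (Et_sub G hz)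
  line := by
    rintro p j z ⟨rfl, hz⟩
    have h1 := Et_line G hQ hz
    rw [← DD_off] at h1
    have h2 : (Fk G Rest col k).off p z = z.2 - (DD G Q H δ).ln p.1 z.1 := rfl
    rw [h2]
    linarith
  conv := by
    rintro p z j l m h1 h2 ⟨rfl, hz⟩ ⟨hm, -⟩
    exact ⟨by omega, hz⟩
  uniq := by
    have key : ∀ (p p' : (Fk G Rest col k).ι) (z : ℝ × ℝ), p'.1.1.2.1 ≤ p.1.1.2.1 →
        z ∈ Et G Q H δ p.1.1 → z ∈ Et G Q H δ p'.1.1 → p = p' := by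
      intro p p' z hl hz hz'
      by_contra hne
      have hne' : p.1 ≠ p'.1 := fun h => hne (Subtype.ext h)
      have hi : p.1.1.1 = p'.1.1.1 := hF.uniq _ _ _ _ z (Et_sub G hz) (Et_sub G hz')
      have h1 := Et_line G hQ hz'
      rw [← DD_off] at h1
      have hm := meet_of G hQ hz hz' (by rw [sub_self, abs_zero]; positivity)
        (h1.trans (by linarith))
      have h2 := hsep p.1 p'.1 p.2.1 p'.2.1 hne' (p.2.2.trans p'.2.2.symm) hl hm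
      have h3 : (DD G Q H δ).sl p.1 - (DD G Q H δ).sl p'.1 = 0 := by
        show F.s p.1.1.1 - F.s p'.1.1.1 = 0
        rw [hi, sub_self]
      rw [h3, abs_zero] at h2
      have h4 : (0 : ℝ) < 2 ^ (DD G Q H δ).lv p.1 := by positivity
      nlinarith
    rintro p p' j j' z ⟨rfl, hz⟩ ⟨rfl, hz'⟩
    rcases le_total p'.1.1.2.1 p.1.1.2.1 with h | h
    · exact key p p' z h hz hz'
    · exact (key p' p z h hz' hz).symm

theorem Fk_sepP (hQ : 1 ≤ Q)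
    (hsep : ∀ p p', p ∉ Rest → p' ∉ Rest → p ≠ p' → col p = col p' →
      (DD G Q H δ).lv p' ≤ (DD G Q H δ).lv p → (DD G Q H δ).Meet 0 (5 * Q) p p' →
      Q * 2 ^ (DD G Q H δ).lv p ≤ |(DD G Q H δ).sl p - (DD G Q H δ).sl p'|) (k : Fin N) :
    (Fk G Rest col k).SepP Q (4 * Q) := by
  rintro p p' j j' hne hjj z ⟨rfl, hz⟩ z' ⟨rfl, hz'⟩ hx ho
  have hne' : p.1 ≠ p'.1 := fun h => hne (Subtype.ext h)
  have h2 : (Fk G Rest col k).off p' z = z.2 - (DD G Q H δ).ln p'.1 z.1 := rfl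
  rw [h2] at ho
  exact hsep p.1 p'.1 p.2.1 p'.2.1 hne' (p.2.2.trans p'.2.2.symm) hjj (meet_of G hQ hz hz' hx ho)

end

theorem Rj_meas (hQ : 0 ≤ Q) (hF : F.Ok u P A (H / 2)) (Rest : Finset (PT G Q H δ)) (j : ℕ) :
    MeasurableSet (Rj G Rest j) := by
  have e : Rj G Rest j = ⋃ p ∈ Rest, ({_z : ℝ × ℝ | j = p.1.2.1} ∩ Et G Q H δ p.1) := by
    ext z
    simp only [Rj, mem_ofPred_eq, mem_iUnion, mem_inter_iff, exists_prop]
  rw [e]
  exact Finset.measurableSet_biUnion _ fun p _ =>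
    (MeasurableSet.const _).inter (Et_meas G hQ hF p.1)

theorem Rj_win (hA : 1 ≤ A) (hAQ : A ≤ Q) (hQH : Q ≤ H) (hW : 0 ≤ W) (hQW : Q ≤ (2 : ℝ) ^ W)
    (hF : F.Ok u P A (H / 2)) (hS : G.Sep0 u A (32 * H)) (Rest : Finset (PT G Q H δ))
    {z : ℝ × ℝ} {j j' : ℕ} (hz : z ∈ Rj G Rest j) (hz' : z ∈ Rj G Rest j') :
    (j' : ℝ) ≤ j + W := by
  obtain ⟨p, -, rfl, hp⟩ := hz
  obtain ⟨p', -, rfl, hp'⟩ := hz'
  rcases le_total p'.1.2.1 p.1.2.1 with h | h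
  · have : (p'.1.2.1 : ℝ) ≤ p.1.2.1 := by exact_mod_cast h
    linarith
  · have h1 := Et_sub G hp'
    have h2 := Et_bad G hp
    have hi : p'.1.1 = p.1.1 := hF.uniq _ _ _ _ z h1 (Et_sub G hp)
    rw [hi] at h1
    have h3 := lev_win G hA hAQ hQH hQW hF hS h1 h2 h (by rw [sub_self, abs_zero]; positivity)
    have h4 : (p'.1.2.1 : ℝ) ≤ p.1.2.1 + (⌊W⌋₊ : ℕ) := by exact_mod_cast h3
    have h5 := Nat.floor_le hW
    linarith

/-- The indicator identity. -/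
theorem ind_eq [Fintype (PT G Q H δ)] (hF : F.Ok u P A (H / 2)) (Rest : Finset (PT G Q H δ))
    {N : ℕ} (col : PT G Q H δ → Fin N) (j : ℕ) (z : ℝ × ℝ) :
    ∑ i, (((G.bad Q H).high δ).E i j).indicator (1 : ℝ × ℝ → ℝ) z =
      (∑ k, ∑ i, ((Fk G Rest col k).E i j).indicator (1 : ℝ × ℝ → ℝ) z) +
        (Rj G Rest j).indicator (1 : ℝ × ℝ → ℝ) z := by
  classical
  by_cases hex : ∃ i : F.ι, z ∈ ((G.bad Q H).high δ).E i j
  · obtain ⟨i0, hi0⟩ := hex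
    have hL : ∑ i, (((G.bad Q H).high δ).E i j).indicator (1 : ℝ × ℝ → ℝ) z = 1 := by
      refine (Finset.sum_eq_single i0 ?_ ?_).trans ?_
      · intro i _ hne
        refine indicator_of_notMem (fun h => hne ?_) _
        exact hF.uniq i i0 j j z h.1.1 hi0.1.1
      · intro h; exact absurd (Finset.mem_univ _) h
      · rw [indicator_of_mem hi0]; rfl
    have hmem : z ∈ Et G Q H δ (tx F Q i0 j z) := ⟨hi0, rfl⟩
    set p : PT G Q H δ := ⟨tx F Q i0 j z, ⟨z, hmem⟩⟩ with hp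
    have huniq : ∀ p' : PT G Q H δ, j = p'.1.2.1 → z ∈ Et G Q H δ p'.1 → p' = p := by
      intro p' h1 h2
      have hi : p'.1.1 = i0 := hF.uniq _ _ _ _ z (Et_sub G h2) hi0.1.1
      exact tile_uniq G (p := p') (p' := p) hi h1.symm h2 hmem
    rw [hL]
    by_cases hpR : p ∈ Rest
    · have h1 : z ∈ Rj G Rest j := ⟨p, hpR, rfl, hmem⟩
      have h2 : ∑ k, ∑ i, ((Fk G Rest col k).E i j).indicator (1 : ℝ × ℝ → ℝ) z = 0 := by
        refine Finset.sum_eq_zero fun k _ => Finset.sum_eq_zero fun i _ => ?_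
        refine indicator_of_notMem (fun h => ?_) _
        have := huniq i.1 h.1 h.2
        exact i.2.1 (this ▸ hpR)
      rw [h2, indicator_of_mem h1, zero_add]
      rfl
    · have h1 : z ∉ Rj G Rest j := by
        rintro ⟨p', hp', h2, h3⟩
        exact hpR (huniq p' h2 h3 ▸ hp')
      rw [indicator_of_notMem h1, add_zero, Finset.sum_eq_single (col p)]
      · have hm : z ∈ (Fk G Rest col (col p)).E ⟨p, hpR, rfl⟩ j := ⟨rfl, hmem⟩
        symm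
        refine (Finset.sum_eq_single (⟨p, hpR, rfl⟩ : (Fk G Rest col (col p)).ι) ?_ ?_).trans ?_
        · intro i _ hne
          refine indicator_of_notMem (fun h => hne ?_) _
          exact Subtype.ext (huniq i.1 h.1 h.2)
        · intro h; exact absurd (@Finset.mem_univ _ (Fk G Rest col (col p)).fin _) h
        · rw [indicator_of_mem hm]; rfl
      · intro k _ hk
        refine Finset.sum_eq_zero fun i _ => ?_
        refine indicator_of_notMem (fun h => hk ?_) _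
        rw [← huniq i.1 h.1 h.2]
        exact i.2.2.symm
      · intro h; exact absurd (Finset.mem_univ _) h
  · have hL : ∑ i, (((G.bad Q H).high δ).E i j).indicator (1 : ℝ × ℝ → ℝ) z = 0 :=
      Finset.sum_eq_zero fun i _ => indicator_of_notMem (fun h => hex ⟨i, h⟩) _
    have h2 : ∑ k, ∑ i, ((Fk G Rest col k).E i j).indicator (1 : ℝ × ℝ → ℝ) z = 0 := by
      refine Finset.sum_eq_zero fun k _ => Finset.sum_eq_zero fun i _ => ?_
      refine indicator_of_notMem (fun h => hex ⟨i.1.1.1, ?_⟩) _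
      obtain ⟨h1, h3⟩ := h
      rw [h1]
      exact h3.1
    have h3 : z ∉ Rj G Rest j := by
      rintro ⟨p', -, h1, h3⟩
      exact hex ⟨p'.1.1, by rw [h1]; exact h3.1⟩
    rw [hL, h2, indicator_of_notMem h3, add_zero]

/-- The numbers (helper818). -/
def Num (K0 c6 c7 : ℕ) : Prop := ∃ C : ℕ, 1 ≤ C ∧ ∀ A H Q W X δ : ℝ, C ≤ A → A ≤ Q → Q ≤ H →
  1 ≤ W → Q ≤ (2 : ℝ) ^ W → 1 ≤ X → 0 < δ → δ ≤ 1 →
  C * (A * W * (Real.log H + X) / δ) ^ C * Q ≤ H →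
  ∃ m w : ℕ, 0 < m ∧ 2 * Q ≤ 2 ^ w ∧ 2 * (Q + ((2 * m : ℕ) + 1) * (5 * Q + 9 * Q)) ≤ H ∧
    ((8 * m * ((⌊W⌋₊ + 1) * c6 + c7 * ⌊14 / δ⌋₊ + 1) : ℕ) : ℝ) ≤
      C * (A * W * (Real.log H + X) / δ) ^ C ∧
    (K0 * (⌊W⌋₊ + 1 : ℕ) * H / δ * (2 : ℝ) ^ (-(δ * m / (K0 * (w + 1)))) : ℝ) ≤ Real.exp (-X)

theorem depth_out (hnum : ∀ K0 : ℕ, 0 < K0 → Num K0 357 81) (hD : H818.StDepthAbs) :
    R2.StDepth := by
  obtain ⟨K0, hK0, hD⟩ := hD
  obtain ⟨C, hC, hnum⟩ := hnum K0 hK0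
  refine ⟨C, hC, ?_⟩
  intro u hu ε hε hlip E0 hE0 hr n ν F G A H Q W X δ hCA hAQ hQH hW hQW hX hδ hδ1 hbig hεH
    hF hM hS
  obtain ⟨r, hr⟩ := hr
  obtain ⟨m, w, hm, hw, hY, hcol, hrest⟩ := hnum A H Q W X δ hCA hAQ hQH hW hQW hX hδ hδ1 hbig
  have hA : 1 ≤ A := le_trans (by exact_mod_cast hC) hCA
  have hQ : 1 ≤ Q := hA.trans hAQ
  have hH : 1 ≤ H := hQ.trans hQH
  have hεH1 : ε * H ≤ 1 := by
    refine le_trans (mul_le_mul_of_nonneg_left ?_ hε) hεH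
    exact le_self_pow₀ hH (by norm_num)
  have hfin : {p : Ix F | (Et G Q H δ p).Nonempty}.Finite :=
    Et_finite G (n := n) (r := r) hF (fun j ⟨z, hz⟩ => hz.2.1) (fun j z hz => (hr z hz.1).1) hQ
  have _i : Fintype (PT G Q H δ) := hfin.fintype
  have hyp' := hyp G (P := F30.Pd u E0 4 n ν) hu.meas hε hlip hA hAQ hQW hδ hδ1 hQH hY le_rfl hεH1
    hw hF hM hS
  obtain ⟨Rest, col, hvol, hsep⟩ := hD (PT G Q H δ) F.ι inferInstance (DD G Q H δ) u 0 ε A Q δ Q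
    (5 * Q) H (⌊W⌋₊ + 1) ((⌊W⌋₊ + 1) * 357) 81 w m hm hyp'
  refine ⟨_, Fk G Rest col, Rj G Rest, hcol, Fk_ok G Rest col hQ hF hsep,
    Fk_sepP G Rest col hQ hsep, Rj_meas G (by linarith) hF Rest, ?_, ?_, ?_, ind_eq G hF Rest col⟩
  · rintro j z ⟨p, -, rfl, hp⟩
    exact hF.sub _ _ (Et_sub G hp)
  · intro z j j' hz hz'
    exact Rj_win G hA hAQ hQH (by linarith) hQW hF hS Rest hz hz'
  · have h1 : Un (Rj G Rest) n ⊆ ⋃ p ∈ Rest, (DD G Q H δ).E p := by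
      rintro z ⟨j, -, p, hp, -, hz⟩
      simp only [mem_iUnion]
      exact ⟨p, hp, hz⟩
    have h2 : (⋃ p, (DD G Q H δ).E p) ⊆ E0 := by
      intro z hz
      simp only [mem_iUnion] at hz
      obtain ⟨p, hz⟩ := hz
      exact (hF.sub _ _ (Et_sub G hz)).1
    calc volume (Un (Rj G Rest) n) ≤ volume (⋃ p ∈ Rest, (DD G Q H δ).E p) := measure_mono h1
      _ ≤ _ := hvol
      _ ≤ ENNReal.ofReal (Real.exp (-X)) * volume E0 := by
        gcongr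

theorem num_holds (K0 : ℕ) (hK0 : 0 < K0) : Num K0 357 81 := by
  obtain ⟨C, hC, h⟩ := depth_num K0 357 81 hK0
  refine ⟨C, hC, fun A H Q W X δ h1 h2 h3 h4 h5 h6 h7 h8 h9 => ?_⟩
  obtain ⟨-, k2, m, k1, k3, k4, k5⟩ := h C le_rfl A H Q W X δ h1 h2 h3 h4 h5 h6 h7 h8 h9
  refine ⟨m, ⌊W⌋₊ + 2, k1, k2, ?_, ?_, k5⟩
  · have e : 2 * (Q + (((2 * m : ℕ) : ℝ) + 1) * (5 * Q + 9 * Q)) = (30 + 56 * m) * Q := by
      push_cast
      ring
    rw [e]
    exact k3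
  · rw [Nat.mul_comm (⌊W⌋₊ + 1) 357]
    exact k4

/-- **[DEPTH]**, the literal statement. -/
theorem stDepth : R2.StDepth := depth_out num_holds stDepthAbs

end Vale.Agent.P112.H566
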