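import Vale.Agent.P112.H566.Pop

/-!
# Counting high singles ([COUNTS], 788's note 16404 (4))

`dn V x b s D k` is the area of the part of `V` in the thin tube of length `2 ^ (-k)` and slope `s`
through `(x, b)`.

* `singles`: the number of pieces of one node which are high (dense at a scale of the window).
* `high_pop`: a high direction of the class `2 ^ k` relative to a reference line makes `k` popular.
* `path`: the number of popular scales (nodes with a high single above a fixed tube) is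
  exponentially integrable.
-/

open MeasureTheory Set
open scoped ENNReal

namespace Vale.Agent.P112.H566

/-- a strip over an arbitrary set -/
theorem strip_le (B : Set ℝ) {f : ℝ → ℝ} (hf : Measurable f) {H : ℝ} :
    volume {z : ℝ × ℝ | z.1 ∈ B ∧ |z.2 - f z.1| ≤ H} ≤ ENNReal.ofReal (2 * H) * volume B := by
  set B' := toMeasurable volume B with hB'
  have hB'm : MeasurableSet B' := measurableSet_toMeasurable _ _
  have hm : MeasurableSet {z : ℝ × ℝ | z.1 ∈ B' ∧ |z.2 - f z.1| ≤ H} := by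
    refine (measurable_fst hB'm).inter ?_
    exact measurableSet_le (continuous_abs.measurable.comp
      (measurable_snd.sub (hf.comp measurable_fst))) measurable_const
  calc volume {z : ℝ × ℝ | z.1 ∈ B ∧ |z.2 - f z.1| ≤ H}
      ≤ volume {z : ℝ × ℝ | z.1 ∈ B' ∧ |z.2 - f z.1| ≤ H} :=
        measure_mono fun z hz => ⟨subset_toMeasurable _ _ hz.1, hz.2⟩
    _ = ∫⁻ x, volume (Prod.mk x ⁻¹' {z : ℝ × ℝ | z.1 ∈ B' ∧ |z.2 - f z.1| ≤ H}) := by
        rw [Measure.volume_eq_prod, Measure.prod_apply hm]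
    _ ≤ ∫⁻ x, B'.indicator (fun _ => ENNReal.ofReal (2 * H)) x := by
        refine lintegral_mono fun x => ?_
        by_cases hx : x ∈ B'
        · rw [indicator_of_mem hx]
          have : Prod.mk x ⁻¹' {z : ℝ × ℝ | z.1 ∈ B' ∧ |z.2 - f z.1| ≤ H} ⊆
              Icc (f x - H) (f x + H) := by
            rintro y ⟨_, hy⟩
            rw [abs_le] at hy
            constructor <;> linarith [hy.1, hy.2]
          refine (measure_mono this).trans ?_
          rw [Real.volume_Icc]
          refine ENNReal.ofReal_le_ofReal (by linarith)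
        · rw [indicator_of_notMem hx]
          have : Prod.mk x ⁻¹' {z : ℝ × ℝ | z.1 ∈ B' ∧ |z.2 - f z.1| ≤ H} = ∅ := by
            ext y
            simp only [mem_preimage, Set.mem_ofPred_eq, mem_empty_iff_false, iff_false]
            exact fun h => hx h.1
          rw [this, measure_empty]
    _ = ENNReal.ofReal (2 * H) * volume B' := by
        rw [lintegral_indicator hB'm, lintegral_const, Measure.restrict_apply_univ]
    _ = ENNReal.ofReal (2 * H) * volume B := by rw [hB', measure_toMeasurable]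

/-- area of `V` in the thin tube of length `2 ^ (-k)`, slope `s`, half width `D`, centre `(x, b)` -/
noncomputable def dn (V : Set (ℝ × ℝ)) (x b s D : ℝ) (k : ℕ) : ℝ≥0∞ :=
  volume {z ∈ V | |z.1 - x| ≤ (1/2)^k ∧ |z.2 - b - s * (z.1 - x)| ≤ D}

theorem dn_le {V : Set (ℝ × ℝ)} {x b s D : ℝ} {k : ℕ} {P : Set ℝ}
    (h : ∀ z ∈ V, |z.1 - x| ≤ (1/2)^k → |z.2 - b - s * (z.1 - x)| ≤ D → z.1 ∈ P) :
    dn V x b s D k ≤ ENNReal.ofReal (2 * D) *
      volume (P ∩ Icc (x - (1/2)^k) (x + (1/2)^k)) := by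
  refine le_trans (measure_mono ?_)
    (strip_le (P ∩ Icc (x - (1/2)^k) (x + (1/2)^k)) (f := fun y => b + s * (y - x))
      (by fun_prop) (H := D))
  rintro z ⟨hz, h1, h2⟩
  refine ⟨⟨h z hz h1 h2, ?_⟩, ?_⟩
  · rw [abs_le] at h1
    constructor <;> linarith [h1.1, h1.2]
  · have e : z.2 - (b + s * (z.1 - x)) = z.2 - b - s * (z.1 - x) := by ring
    rw [e]; exact h2

/-- the slope field on the thin tube is the one on the reference line, up to `e (D + h + Y)` -/
theorem ref_line {u : ℝ × ℝ → ℝ} {e : ℝ} (he : 0 ≤ e)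
    (hu : ∀ x y y', |u (x, y) - u (x, y')| ≤ e * |y - y'|)
    {x b s D : ℝ} {k : ℕ} {c0 s0 h Y : ℝ} (hb : |b - (c0 + s0 * x)| ≤ h)
    (hs : |s - s0| ≤ Y * 2^k) {z : ℝ × ℝ} (h1 : |z.1 - x| ≤ (1/2)^k)
    (h2 : |z.2 - b - s * (z.1 - x)| ≤ D) :
    |u z - u (z.1, c0 + s0 * z.1)| ≤ e * (D + h + Y) := by
  have h3 : |z.2 - (c0 + s0 * z.1)| ≤ D + h + Y := by
    have e1 : z.2 - (c0 + s0 * z.1) =
        (z.2 - b - s * (z.1 - x)) + (b - (c0 + s0 * x)) + (s - s0) * (z.1 - x) := by ring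
    have h4 : |(s - s0) * (z.1 - x)| ≤ Y := by
      rw [abs_mul]
      calc |s - s0| * |z.1 - x| ≤ (Y * 2^k) * (1/2)^k := by
            gcongr
            exact (abs_nonneg _).trans hs
        _ = Y := by rw [mul_assoc, ← mul_pow]; norm_num
    rw [e1]
    exact (abs_add_three _ _ _).trans (by linarith)
  have h5 := hu z.1 z.2 (c0 + s0 * z.1)
  exact h5.trans (by gcongr)

/-- **[SINGLES]**: indices `i` with slopes `s i`, scales `k i ∈ [k0, k0 + W]`, sets `V i`; the slope
field on `V i` is within `A 2 ^ (k i)` of `s i` and farther than `B 2 ^ (k i)` from the slopes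
`s j` of the indices with `k j ≤ k i`; every `i` is high at the fat point `(x, y)`. -/
theorem singles {ι : Type*} (S : Finset ι) {u : ℝ × ℝ → ℝ} {e : ℝ}
    (he : 0 ≤ e) (hu : ∀ x y y', |u (x, y) - u (x, y')| ≤ e * |y - y'|)
    (hum : Measurable u)
    {x y : ℝ} (s b : ι → ℝ) (k : ι → ℕ) (V : ι → Set (ℝ × ℝ))
    {A B D Y h κ : ℝ} {k0 W : ℕ} (hD : 0 < D) (hκ : 0 < κ)
    (hk : ∀ i ∈ S, k0 ≤ k i ∧ k i ≤ k0 + W)
    (hb : ∀ i ∈ S, |b i - y| ≤ h)
    (hY : ∀ i ∈ S, ∀ j ∈ S, |s i - s j| ≤ Y * 2^k0)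
    (hV : ∀ i ∈ S, ∀ z ∈ V i, |z.1 - x| ≤ (1/2)^(k i) → |z.2 - b i - s i * (z.1 - x)| ≤ D →
      |u z - s i| ≤ A * 2^(k i))
    (hsep : ∀ i ∈ S, ∀ j ∈ S, i ≠ j → k j ≤ k i → ∀ z ∈ V i, |z.1 - x| ≤ (1/2)^(k i) →
      |z.2 - b i - s i * (z.1 - x)| ≤ D → B * 2^(k i) < |u z - s j|)
    (hA : 0 ≤ A) (hAB : 2 * (e * (D + h + Y)) ≤ (B - A) * 2^k0)
    (hd : ∀ i ∈ S, ENNReal.ofReal (κ * (1/2)^(k i)) ≤ dn (V i) x (b i) (s i) D (k i)) :
    (S.card : ℝ) ≤ (W + 1) * (4 * D / κ) := by
  classical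
  rcases S.eq_empty_or_nonempty with rfl | ⟨i0, hi0⟩
  · simp only [Finset.card_empty, Nat.cast_zero]; positivity
  set s0 := s i0 with hs0
  set c0 := y - s0 * x with hc0
  have hc : c0 + s0 * x = y := by rw [hc0]; ring
  set η := e * (D + h + Y) with hη
  set ut : ℝ → ℝ := fun x' => u (x', c0 + s0 * x') with hut
  have hutm : Measurable ut := hum.comp (by fun_prop)
  -- the projections
  let P : ι → Set ℝ := fun i => {x' | |ut x' - s i| ≤ A * 2^(k i) + η ∧
    ∀ j ∈ S, j ≠ i → k j ≤ k i → B * 2^(k i) - η < |ut x' - s j|}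
  have hPm : ∀ i, MeasurableSet (P i) := by
    intro i
    refine MeasurableSet.inter ?_ ?_
    · exact measurableSet_le (continuous_abs.measurable.comp
        (hutm.sub measurable_const)) measurable_const
    · have : {x' | ∀ j ∈ S, j ≠ i → k j ≤ k i → B * 2^(k i) - η < |ut x' - s j|} =
          ⋂ j ∈ S, {x' | j ≠ i → k j ≤ k i → B * 2^(k i) - η < |ut x' - s j|} := by
        ext x'; simp
      rw [show (fun a => ∀ j ∈ S, j ≠ i → k j ≤ k i → B * 2^(k i) - η < |ut a - s j|) =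
        {x' | ∀ j ∈ S, j ≠ i → k j ≤ k i → B * 2^(k i) - η < |ut x' - s j|} from rfl, this]
      refine Finset.measurableSet_biInter _ fun j _ => ?_
      by_cases h1 : j ≠ i
      · by_cases h2 : k j ≤ k i
        · have : {x' | j ≠ i → k j ≤ k i → B * 2^(k i) - η < |ut x' - s j|} =
              {x' | B * 2^(k i) - η < |ut x' - s j|} := by
            ext x'; simp [h1, h2]
          rw [this]
          exact measurableSet_lt measurable_const (continuous_abs.measurable.comp
            (hutm.sub measurable_const))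
        · have : {x' | j ≠ i → k j ≤ k i → B * 2^(k i) - η < |ut x' - s j|} = univ := by
            ext x'; simp [h2]
          rw [this]; exact MeasurableSet.univ
      · have : {x' | j ≠ i → k j ≤ k i → B * 2^(k i) - η < |ut x' - s j|} = univ := by
          ext x'; simp [h1]
        rw [this]; exact MeasurableSet.univ
  have hpow : ∀ i ∈ S, (2:ℝ)^k0 ≤ 2^(k i) := fun i hi =>
    pow_le_pow_right₀ (by norm_num) (hk i hi).1
  have hY0 : 0 ≤ Y := by
    have h1 := hY i0 hi0 i0 hi0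
    have h2 : (0:ℝ) < 2^k0 := by positivity
    rw [sub_self, abs_zero] at h1
    by_contra h3
    push Not at h3
    nlinarith
  have hproj : ∀ i ∈ S, ∀ z ∈ V i, |z.1 - x| ≤ (1/2)^(k i) →
      |z.2 - b i - s i * (z.1 - x)| ≤ D → z.1 ∈ P i := by
    intro i hi z hz h1 h2
    have h3 : |u z - ut z.1| ≤ η := by
      refine ref_line he hu (x := x) (b := b i) (s := s i) (k := k i) ?_ ?_ h1 h2
      · rw [hc]; exact hb i hi
      · refine (hY i hi i0 hi0).trans ?_
        have := hpow i hi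
        gcongr
    refine ⟨?_, fun j hj hji hkj => ?_⟩
    · have h4 := hV i hi z hz h1 h2
      calc |ut z.1 - s i| = |(u z - s i) - (u z - ut z.1)| := by congr 1; ring
        _ ≤ |u z - s i| + |u z - ut z.1| := abs_sub _ _
        _ ≤ _ := by linarith
    · have h4 := hsep i hi j hj hji.symm hkj z hz h1 h2
      have h5 : |u z - s j| ≤ |u z - ut z.1| + |ut z.1 - s j| := abs_sub_le _ _ _
      linarith
  have hdisj : ∀ i ∈ S, ∀ j ∈ S, i ≠ j → Disjoint (P i) (P j) := by
    have main : ∀ i ∈ S, ∀ j ∈ S, i ≠ j → k j ≤ k i → Disjoint (P i) (P j) := by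
      intro i hi j hj hij hkj
      rw [Set.disjoint_left]
      intro x' hx1 hx2
      have h1 := hx1.2 j hj hij.symm hkj
      have h2 := hx2.1
      have h3 : (2:ℝ)^(k j) ≤ 2^(k i) := pow_le_pow_right₀ (by norm_num) hkj
      have h4 := hpow i hi
      have h5 : A * 2^(k j) ≤ A * 2^(k i) := by gcongr
      have h6 : 0 ≤ B - A := by
        by_contra h7
        push Not at h7
        have h8 : (0:ℝ) < 2^k0 := by positivity
        have h9 : 0 ≤ η := by
          have : 0 ≤ h := (abs_nonneg _).trans (hb i hi)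
          rw [hη]; positivity
        nlinarith
      have h7 : (B - A) * 2^k0 ≤ (B - A) * 2^(k i) := by gcongr
      nlinarith
    intro i hi j hj hij
    rcases le_total (k j) (k i) with h1 | h1
    · exact main i hi j hj hij h1
    · exact (main j hj i hi hij.symm h1).symm
  -- one scale
  have hscale : ∀ k' ∈ Finset.Icc k0 (k0 + W),
      ((S.filter (fun i => k i = k')).card : ℝ) ≤ 4 * D / κ := by
    intro k' _
    set S' := S.filter (fun i => k i = k') with hS'
    have h1 : ∀ i ∈ S', ENNReal.ofReal (κ * (1/2)^k') ≤ ENNReal.ofReal (2 * D) *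
        volume (P i ∩ Icc (x - (1/2)^k') (x + (1/2)^k')) := by
      intro i hi
      obtain ⟨hiS, hik⟩ := Finset.mem_filter.1 hi
      have h2 := (hd i hiS).trans (dn_le (hproj i hiS))
      rwa [hik] at h2
    have h2 : (S'.card : ℝ≥0∞) * ENNReal.ofReal (κ * (1/2)^k') ≤
        ENNReal.ofReal (2 * D) * ENNReal.ofReal (2 * (1/2)^k') := by
      calc (S'.card : ℝ≥0∞) * ENNReal.ofReal (κ * (1/2)^k')
          = ∑ i ∈ S', ENNReal.ofReal (κ * (1/2)^k') := by
            rw [Finset.sum_const, nsmul_eq_mul]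
        _ ≤ ∑ i ∈ S', ENNReal.ofReal (2 * D) *
            volume (P i ∩ Icc (x - (1/2)^k') (x + (1/2)^k')) := Finset.sum_le_sum h1
        _ = ENNReal.ofReal (2 * D) *
            volume (⋃ i ∈ S', (P i ∩ Icc (x - (1/2)^k') (x + (1/2)^k'))) := by
            rw [← Finset.mul_sum, measure_biUnion_finset]
            · intro i hi j hj hij
              exact (hdisj i (Finset.mem_filter.1 hi).1 j (Finset.mem_filter.1 hj).1 hij).mono
                inter_subset_left inter_subset_left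
            · exact fun i _ => (hPm i).inter measurableSet_Icc
        _ ≤ ENNReal.ofReal (2 * D) * volume (Icc (x - (1/2)^k') (x + (1/2)^k')) := by
            gcongr
            exact iUnion₂_subset fun i _ => inter_subset_right
        _ = ENNReal.ofReal (2 * D) * ENNReal.ofReal (2 * (1/2)^k') := by
            rw [Real.volume_Icc]; congr 2; ring
    rw [← ENNReal.ofReal_natCast, ← ENNReal.ofReal_mul (by positivity),
      ← ENNReal.ofReal_mul (by positivity)] at h2
    have h3 := (ENNReal.ofReal_le_ofReal_iff (by positivity)).1 h2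
    have h4 : (0:ℝ) < (1/2)^k' := by positivity
    rw [le_div_iff₀ hκ]
    have h5 : (S'.card : ℝ) * κ * (1/2)^k' ≤ 4 * D * (1/2)^k' := by nlinarith
    exact le_of_mul_le_mul_right h5 h4
  have hcard : (S.card : ℝ) = ∑ k' ∈ Finset.Icc k0 (k0 + W),
      ((S.filter (fun i => k i = k')).card : ℝ) := by
    have := Finset.card_eq_sum_card_fiberwise (s := S) (t := Finset.Icc k0 (k0 + W)) (f := k)
      (fun i hi => Finset.mem_coe.2 (Finset.mem_Icc.2 (hk i hi)))
    rw [this]; push_cast; rfl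
  rw [hcard]
  calc ∑ k' ∈ Finset.Icc k0 (k0 + W), ((S.filter (fun i => k i = k')).card : ℝ)
      ≤ ∑ k' ∈ Finset.Icc k0 (k0 + W), 4 * D / κ := Finset.sum_le_sum hscale
    _ = (W + 1) * (4 * D / κ) := by
        rw [Finset.sum_const, Nat.card_Icc, nsmul_eq_mul]
        have : k0 + W + 1 - k0 = W + 1 := by omega
        rw [this]; push_cast; ring

/-- the points of the reference line at which the slope field is at distance about `2 ^ k` -/
def Sh (u : ℝ × ℝ → ℝ) (s0 c0 c C : ℝ) (k : ℕ) : Set ℝ :=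
  {x | c / 2 * 2^k ≤ |u (x, c0 + s0 * x) - s0| ∧
    |u (x, c0 + s0 * x) - s0| ≤ (C + c / 2) * 2^k}

theorem Sh_meas {u : ℝ × ℝ → ℝ} (hum : Measurable u) (s0 c0 c C : ℝ) (k : ℕ) :
    MeasurableSet (Sh u s0 c0 c C k) := by
  have h1 : Measurable fun x : ℝ => u (x, c0 + s0 * x) := hum.comp (by fun_prop)
  have h2 : Measurable fun x : ℝ => |u (x, c0 + s0 * x) - s0| :=
    continuous_abs.measurable.comp (h1.sub measurable_const)
  exact (measurableSet_le measurable_const h2).inter (measurableSet_le h2 measurable_const)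

theorem Sh_disj {u : ℝ × ℝ → ℝ} {s0 c0 c C : ℝ} (hc : 0 < c) {w : ℕ}
    (hw : 2 * C + c < c * 2^w) {k k' : ℕ} (hk : k + w ≤ k') :
    Disjoint (Sh u s0 c0 c C k) (Sh u s0 c0 c C k') := by
  rw [Set.disjoint_left]
  intro x h1 h2
  have h3 := h1.2
  have h4 := h2.1
  have h5 : (2:ℝ)^(k + w) ≤ 2^k' := pow_le_pow_right₀ (by norm_num) hk
  have h6 : (0:ℝ) < 2^k := by positivity
  rw [pow_add] at h5
  have h7 : c / 2 * (2^k * 2^w) ≤ c / 2 * 2^k' := by gcongr
  nlinarith

/-- a high direction of the class `2 ^ k` relative to the reference line makes `k` popular -/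
theorem high_pop {u : ℝ × ℝ → ℝ} {e : ℝ} (he : 0 ≤ e)
    (hu : ∀ x y y', |u (x, y) - u (x, y')| ≤ e * |y - y'|)
    {V : Set (ℝ × ℝ)} {x b s D : ℝ} {k : ℕ} {c0 s0 h Y c C κ : ℝ} (hD : 0 < D)
    (hb : |b - (c0 + s0 * x)| ≤ h) (hs : |s - s0| ≤ Y * 2^k)
    (hV : ∀ z ∈ V, |z.1 - x| ≤ (1/2)^k → |z.2 - b - s * (z.1 - x)| ≤ D →
      c * 2^k ≤ |u z - s0| ∧ |u z - s0| ≤ C * 2^k)
    (hc : e * (D + h + Y) ≤ c / 2 * 2^k)
    (hd : ENNReal.ofReal (κ * (1/2)^k) ≤ dn V x b s D k) :
    Pop (Sh u s0 c0 c C) (κ / (2 * D)) k x := by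
  have h1 : dn V x b s D k ≤ ENNReal.ofReal (2 * D) *
      volume (Sh u s0 c0 c C k ∩ Icc (x - (1/2)^k) (x + (1/2)^k)) := by
    refine dn_le fun z hz h1 h2 => ?_
    have h3 := ref_line he hu hb hs h1 h2
    obtain ⟨h4, h5⟩ := hV z hz h1 h2
    constructor
    · have h6 : |u z - s0| ≤ |u z - u (z.1, c0 + s0 * z.1)| + |u (z.1, c0 + s0 * z.1) - s0| :=
        abs_sub_le _ _ _
      linarith
    · have h6 : |u (z.1, c0 + s0 * z.1) - s0| ≤
          |u (z.1, c0 + s0 * z.1) - u z| + |u z - s0| := abs_sub_le _ _ _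
      rw [abs_sub_comm (u (z.1, c0 + s0 * z.1)) (u z)] at h6
      linarith
  have h2 := hd.trans h1
  have h3 : κ / (2 * D) * (1/2)^k = (κ * (1/2)^k) / (2 * D) := by ring
  rw [Pop, h3, ENNReal.ofReal_div_of_pos (by positivity)]
  rw [ENNReal.div_le_iff_le_mul (Or.inl (by simpa using hD)) (Or.inl ENNReal.ofReal_ne_top)]
  rw [mul_comm (volume _)]
  exact h2

/-- **[PATH]**: the set of points of the fat window at which at least `m` scales are popular. -/
theorem path {u : ℝ × ℝ → ℝ} (hum : Measurable u) {s0 c0 c C : ℝ} (hc : 0 < c) {w : ℕ}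
    (hw : 2 * C + c < c * 2^w) (hC : 0 ≤ C) {κ : ℝ} {K : ℕ} (hK0 : 0 < K) (hK : 16 ≤ κ * K)
    {k0 n : ℕ} (hk0 : 3 ≤ k0) (a b H : ℝ) (m : ℕ) :
    volume {z : ℝ × ℝ | z.1 ∈ Icc a b ∧ |z.2 - (c0 + s0 * z.1)| ≤ H ∧
      m ≤ (pops (Sh u s0 c0 c C) κ k0 n z.1).card} ≤
      ENNReal.ofReal (2 * H) * (2 * w * (1/2)^(m/(2*w)/K) *
        volume (Icc (a - 8*(1/2)^k0) (b + 8*(1/2)^k0))) := by
  have hw0 : 0 < w := by
    rcases Nat.eq_zero_or_pos w with h | h
    · rw [h, pow_zero] at hw; nlinarith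
    · exact h
  have h1 := jn_pop (E := Sh u s0 c0 c C) (fun k => Sh_meas hum _ _ _ _ k) hw0
    (fun k k' h => Sh_disj hc hw h) hK0 hK (n := n) hk0 a b m
  refine le_trans (measure_mono ?_) ((strip_le
    {x ∈ Icc a b | m ≤ (pops (Sh u s0 c0 c C) κ k0 n x).card} (f := fun x => c0 + s0 * x)
      (by fun_prop) (H := H)).trans (by gcongr))
  rintro z ⟨h2, h3, h4⟩
  exact ⟨⟨h2, h4⟩, h3⟩

end Vale.Agent.P112.H566
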