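import Vale.Agent.P112.H540.StSplit
import Vale.Agent.P112.H818.DDefs

/-!
# P112, chapter (G), [DEPTH], packaging, part A (helper566): the tiles of the bad high part

`Et G Q H δ (i, j, k, o)`: the high bad pairs of the tree `i` at the level `j` over the cell `k`,
offsets in the cell `o` of height `⌊Q⌋`. `hyp`: the abstract hypotheses of `H818.StDepthAbs`.
-/

open MeasureTheory Set
open scoped ENNReal

set_option linter.dupNamespace false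

noncomputable section

namespace Vale.Agent.P112.H566

open T H818

/-! ### Cells -/

theorem q_abs {j : ℕ} {x y : ℝ} (h : q 0 j x = q 0 j y) : |x - y| ≤ 1 / 2 ^ j := by
  unfold q at h
  have hp : (0 : ℝ) < 2 ^ j := by positivity
  have h1 := Int.abs_sub_lt_one_of_floor_eq_floor h
  have e : 2 ^ j * (x - 0) - 2 ^ j * (y - 0) = 2 ^ j * (x - y) := by ring
  rw [e, abs_mul, abs_of_pos hp] at h1
  rw [le_div_iff₀ hp]
  linarith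

theorem q_left {j : ℕ} {x : ℝ} {k : ℤ} (h : q 0 j x = k) : |x - (0 + k / 2 ^ j)| ≤ 1 / 2 ^ j := by
  unfold q at h
  have hp : (0 : ℝ) < 2 ^ j := by positivity
  have h1 := Int.floor_le (2 ^ j * (x - 0))
  have h2 := Int.lt_floor_add_one (2 ^ j * (x - 0))
  rw [h] at h1 h2
  have e : x - (0 + k / 2 ^ j) = (2 ^ j * (x - 0) - k) / 2 ^ j := by
    field_simp
    ring
  rw [e, abs_div, abs_of_pos hp]
  gcongr
  rw [abs_le]
  constructor <;> linarith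

theorem q_diff {j : ℕ} {x y : ℝ} {N : ℕ} (h : |x - y| ≤ N / 2 ^ j) :
    |q 0 j x - q 0 j y| ≤ N + 1 := by
  have hp : (0 : ℝ) < 2 ^ j := by positivity
  rw [le_div_iff₀ hp] at h
  have h0 : |2 ^ j * (x - 0) - 2 ^ j * (y - 0)| ≤ N := by
    have e : 2 ^ j * (x - 0) - 2 ^ j * (y - 0) = 2 ^ j * (x - y) := by ring
    rw [e, abs_mul, abs_of_pos hp]
    linarith
  unfold q
  have a1 := Int.floor_le (2 ^ j * (x - 0))
  have a2 := Int.lt_floor_add_one (2 ^ j * (x - 0))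
  have b1 := Int.floor_le (2 ^ j * (y - 0))
  have b2 := Int.lt_floor_add_one (2 ^ j * (y - 0))
  rw [abs_le] at h0
  have h3 : ((⌊2 ^ j * (x - 0)⌋ - ⌊2 ^ j * (y - 0)⌋ : ℤ) : ℝ) < ((N + 1 : ℤ) : ℝ) := by
    push_cast
    linarith [h0.2]
  have h4 : ((-(N + 1) : ℤ) : ℝ) < ((⌊2 ^ j * (x - 0)⌋ - ⌊2 ^ j * (y - 0)⌋ : ℤ) : ℝ) := by
    push_cast
    linarith [h0.1]
  have h5 : ⌊2 ^ j * (x - 0)⌋ - ⌊2 ^ j * (y - 0)⌋ < (N : ℤ) + 1 := by exact_mod_cast h3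
  have h6 : -((N : ℤ) + 1) < ⌊2 ^ j * (x - 0)⌋ - ⌊2 ^ j * (y - 0)⌋ := by exact_mod_cast h4
  rw [abs_le]
  constructor <;> omega

theorem q_meas0 (i : ℕ) : Measurable fun z : ℝ × ℝ => q 0 i z.1 := by
  unfold q
  exact Int.measurable_floor.comp (measurable_const.mul (measurable_fst.sub_const 0))

/-! ### Tiles -/

variable {F : R2.Tr} (G : R2.Cells F) {u : ℝ × ℝ → ℝ} {P : ℕ → Set (ℝ × ℝ)} {A H Q δ W Y ε : ℝ}

/-- the index set of the tiles: tree, level, cell, offset cell of height `⌊Q⌋` -/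
abbrev Ix (F : R2.Tr) : Type := F.ι × ℕ × ℤ × ℤ

/-- the tile of a pair -/
def tx (F : R2.Tr) (Q : ℝ) (i : F.ι) (j : ℕ) (z : ℝ × ℝ) : Ix F :=
  (i, j, q 0 j z.1, ⌊F.off i z⌋ / ⌊Q⌋)

/-- the set of the tile -/
def Et (Q H δ : ℝ) (p : Ix F) : Set (ℝ × ℝ) :=
  {z | z ∈ ((G.bad Q H).high δ).E p.1 p.2.1 ∧ tx F Q p.1 p.2.1 z = p}

theorem off_meas (i : F.ι) : Measurable fun z : ℝ × ℝ => F.off i z := by
  unfold R2.Tr.off
  fun_prop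

/-- Measurability of the high part. -/
theorem high_meas (T : R2.Tr) {u : ℝ × ℝ → ℝ} {w : ℝ} (hT : T.Ok u P A w) (δ : ℝ) (i : T.ι)
    (j : ℕ) : MeasurableSet ((T.high δ).E i j) := by
  have h1 : Measurable fun z : ℝ × ℝ => ((q 0 j z.1, ⌊T.off i z⌋) : ℤ × ℤ) :=
    (q_meas0 j).prodMk (Int.measurable_floor.comp (off_meas i))
  have e : (T.high δ).E i j = T.E i j ∩ (fun z : ℝ × ℝ => ((q 0 j z.1, ⌊T.off i z⌋) : ℤ × ℤ)) ⁻¹'
      {a | ENNReal.ofReal (δ / 2 ^ j) ≤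
        volume (T.E i j ∩ {z' | q 0 j z'.1 = a.1 ∧ ⌊T.off i z'⌋ = a.2})} := rfl
  rw [e]
  exact (hT.meas i j).inter (h1 MeasurableSet.of_discrete)

theorem tx_meas (Q : ℝ) (i : F.ι) (j : ℕ) (p : Ix F) : MeasurableSet {z | tx F Q i j z = p} := by
  have e : {z | tx F Q i j z = p} = {_z : ℝ × ℝ | i = p.1 ∧ j = p.2.1} ∩
      ({z | q 0 j z.1 = p.2.2.1} ∩ (fun z => ⌊F.off i z⌋) ⁻¹' {a | a / ⌊Q⌋ = p.2.2.2}) := by
    ext z
    simp only [tx, mem_ofPred_eq, mem_inter_iff, mem_preimage, Prod.ext_iff]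
    tauto
  rw [e]
  refine (MeasurableSet.const _).inter (MeasurableSet.inter ?_ ?_)
  · exact (q_meas0 j) (MeasurableSet.of_discrete (s := {p.2.2.1}))
  · exact (Int.measurable_floor.comp (off_meas i)) MeasurableSet.of_discrete

theorem Et_meas (hQ : 0 ≤ Q) (hF : F.Ok u P A (H / 2)) (p : Ix F) :
    MeasurableSet (Et G Q H δ p) :=
  (high_meas (G.bad Q H) (H540.bad_ok G hQ hF) δ p.1 p.2.1).inter (tx_meas Q p.1 p.2.1 p)

theorem Et_sub {p : Ix F} {z : ℝ × ℝ} (hz : z ∈ Et G Q H δ p) : z ∈ F.E p.1 p.2.1 := hz.1.1.1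

theorem Et_bad {p : Ix F} {z : ℝ × ℝ} (hz : z ∈ Et G Q H δ p) :
    z ∈ (G.bad Q H).E p.1 p.2.1 := hz.1.1

theorem Et_cell {p : Ix F} {z : ℝ × ℝ} (hz : z ∈ Et G Q H δ p) : q 0 p.2.1 z.1 = p.2.2.1 :=
  congrArg (fun t : Ix F => t.2.2.1) hz.2

theorem Et_off {p : Ix F} {z : ℝ × ℝ} (hz : z ∈ Et G Q H δ p) :
    ⌊F.off p.1 z⌋ / ⌊Q⌋ = p.2.2.2 := congrArg (fun t : Ix F => t.2.2.2) hz.2

theorem fl_pos (hQ : 1 ≤ Q) : (1 : ℤ) ≤ ⌊Q⌋ := Int.le_floor.2 (by exact_mod_cast hQ)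

theorem fl_half (hQ : 1 ≤ Q) : Q / 2 ≤ (⌊Q⌋ : ℝ) := by
  have h1 : (1 : ℝ) ≤ ⌊Q⌋ := by exact_mod_cast fl_pos hQ
  have h2 := Int.lt_floor_add_one Q
  linarith

/-- the offset in the tile -/
theorem Et_line (hQ : 1 ≤ Q) {p : Ix F} {z : ℝ × ℝ} (hz : z ∈ Et G Q H δ p) :
    |F.off p.1 z - (p.2.2.2 + 1 / 2) * ⌊Q⌋| ≤ Q / 2 := by
  have hN := fl_pos hQ
  have h0 := Et_off G hz
  set a : ℤ := ⌊F.off p.1 z⌋ with ha
  set N : ℤ := ⌊Q⌋ with hNN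
  have h1 : p.2.2.2 * N ≤ a := by
    rw [← h0]
    exact Int.ediv_mul_le a (by omega)
  have h2 : a + 1 ≤ (p.2.2.2 + 1) * N := by
    have h3 : a < (a / N + 1) * N := Int.lt_ediv_add_one_mul_self a (by omega)
    rw [h0] at h3
    omega
  have h4 : (a : ℝ) ≤ F.off p.1 z := Int.floor_le _
  have h5 : F.off p.1 z < a + 1 := Int.lt_floor_add_one _
  have h6 : (p.2.2.2 : ℝ) * N ≤ a := by exact_mod_cast h1
  have h7 : (a : ℝ) + 1 ≤ (p.2.2.2 + 1) * N := by exact_mod_cast h2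
  have h8 : (N : ℝ) ≤ Q := Int.floor_le Q
  rw [abs_le]
  constructor <;> nlinarith

/-- the tiles with at least one pair -/
def PT (Q H δ : ℝ) : Type := {p : Ix F // (Et G Q H δ p).Nonempty}

theorem Et_finite {n : ℕ} {r : ℝ} (hF : F.Ok u P A (H / 2)) (hP : ∀ j, (P j).Nonempty → j < n)
    (hr : ∀ j, ∀ z ∈ P j, |z.1| ≤ r) (hQ : 1 ≤ Q) :
    {p : Ix F | (Et G Q H δ p).Nonempty}.Finite := by
  have hN := fl_pos hQ
  refine ((((Set.finite_univ (α := F.ι)).prod ((Set.finite_Iio n).prod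
    ((Set.finite_Icc ⌊-(2 ^ n * r)⌋ ⌊2 ^ n * r⌋).prod
    (Set.finite_Icc (⌊-(H / 2)⌋ / ⌊Q⌋) (⌊H / 2⌋ / ⌊Q⌋))))))).subset ?_
  rintro ⟨i, j, k, o⟩ ⟨z, hz⟩
  have h1 : z ∈ F.E i j := Et_sub G hz
  have h2 := hF.sub i j h1
  have hj := hP j ⟨z, h2⟩
  have h3 := hr j z h2
  have h4 : q 0 j z.1 = k := Et_cell G hz
  have h5 : ⌊F.off i z⌋ / ⌊Q⌋ = o := Et_off G hz
  have h6 := hF.line i j z h1
  have hp : (0 : ℝ) < 2 ^ j := by positivity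
  have hjn : (2 : ℝ) ^ j ≤ 2 ^ n := pow_le_pow_right₀ (by norm_num) hj.le
  have hr0 : 0 ≤ r := (abs_nonneg _).trans h3
  have h7 : |2 ^ j * (z.1 - 0)| ≤ 2 ^ n * r := by
    rw [sub_zero, abs_mul, abs_of_pos hp]
    gcongr
  rw [abs_le] at h6 h7
  refine ⟨mem_univ _, hj, ⟨?_, ?_⟩, ⟨?_, ?_⟩⟩
  · rw [← h4]; exact Int.floor_le_floor h7.1
  · rw [← h4]; exact Int.floor_le_floor h7.2
  · rw [← h5]; exact Int.ediv_le_ediv (by omega) (Int.floor_le_floor h6.1)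
  · rw [← h5]; exact Int.ediv_le_ediv (by omega) (Int.floor_le_floor h6.2)

/-- the data of the family of tiles -/
def DD (Q H δ : ℝ) : TD (PT G Q H δ) F.ι where
  tr p := p.1.1
  s := F.s
  c p := F.c p.1.1 + (p.1.2.2.2 + 1 / 2) * ⌊Q⌋
  lv p := p.1.2.1
  cl p := p.1.2.2.1
  E p := Et G Q H δ p.1

theorem DD_ln (p : PT G Q H δ) (x : ℝ) : (DD G Q H δ).ln p x =
    F.c p.1.1 + (p.1.2.2.2 + 1 / 2) * ⌊Q⌋ + F.s p.1.1 * x := rfl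

theorem DD_off (p : PT G Q H δ) (z : ℝ × ℝ) : z.2 - (DD G Q H δ).ln p z.1 =
    F.off p.1.1 z - (p.1.2.2.2 + 1 / 2) * ⌊Q⌋ := by
  rw [DD_ln]
  unfold R2.Tr.off
  ring

/-- points of two tiles which meet are near -/
theorem near_of {p p' : PT G Q H δ} (hl : (DD G Q H δ).lv p' ≤ (DD G Q H δ).lv p) {x : ℝ}
    (h1 : q 0 ((DD G Q H δ).lv p) x = (DD G Q H δ).cl p)
    (h2 : |x - (DD G Q H δ).L 0 p'| ≤ 5 / 2 ^ (DD G Q H δ).lv p') {z z' : ℝ × ℝ}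
    (hz : z ∈ Et G Q H δ p.1) (hz' : z' ∈ Et G Q H δ p'.1) :
    |z.1 - z'.1| ≤ 7 / 2 ^ p'.1.2.1 := by
  have a1 : |x - z.1| ≤ 1 / 2 ^ p.1.2.1 := q_abs (h1.trans (Et_cell G hz).symm)
  have a2 : |z'.1 - (0 + p'.1.2.2.1 / 2 ^ p'.1.2.1)| ≤ 1 / 2 ^ p'.1.2.1 := q_left (Et_cell G hz')
  have a3 : |x - (0 + p'.1.2.2.1 / 2 ^ p'.1.2.1)| ≤ 5 / 2 ^ p'.1.2.1 := h2
  have hl' : p'.1.2.1 ≤ p.1.2.1 := hl
  have a4 : (1 : ℝ) / 2 ^ p.1.2.1 ≤ 1 / 2 ^ p'.1.2.1 :=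
    one_div_le_one_div_of_le (by positivity) (pow_le_pow_right₀ (by norm_num) hl')
  have e : (7 : ℝ) / 2 ^ p'.1.2.1 = 1 / 2 ^ p'.1.2.1 + 5 / 2 ^ p'.1.2.1 + 1 / 2 ^ p'.1.2.1 := by
    rw [← add_div, ← add_div]; norm_num
  rw [e]
  rw [abs_le] at *
  constructor <;> linarith

/-- levels of bad pairs of one tree at nearby points -/
theorem lev_win (hA : 1 ≤ A) (hAQ : A ≤ Q) (hQH : Q ≤ H) (hQW : Q ≤ (2 : ℝ) ^ W)
    (hF : F.Ok u P A (H / 2)) (hS : G.Sep0 u A (32 * H)) {i : F.ι} {j j' : ℕ} {z z' : ℝ × ℝ}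
    (hz : z ∈ F.E i j) (hz' : z' ∈ (G.bad Q H).E i j') (hjj : j' ≤ j)
    (hx : |z.1 - z'.1| ≤ 8 / 2 ^ j') : j ≤ j' + ⌊W⌋₊ := by
  have hQ0 : 0 ≤ Q := by linarith
  have h1 := H540.bad_window G hQ0 hF hS (by linarith) hz hz' hjj hx
  obtain ⟨d, rfl⟩ := Nat.exists_eq_add_of_le hjj
  have hp : (0 : ℝ) < 2 ^ j' := by positivity
  have hd : (0 : ℝ) < 2 ^ d := by positivity
  rw [pow_add] at h1
  have h2 : (2 : ℝ) ^ d ≤ Q := by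
    have h3 : 59 * A * 2 ^ d ≤ Q := by
      have : 59 * A * 2 ^ d * 2 ^ j' ≤ Q * 2 ^ j' := by linarith
      exact le_of_mul_le_mul_right this hp
    nlinarith
  have h4 : (2 : ℝ) ^ (d : ℝ) ≤ 2 ^ W := by
    rw [Real.rpow_natCast]
    exact h2.trans hQW
  have h5 : (d : ℝ) ≤ W := (Real.rpow_le_rpow_left_iff (by norm_num)).1 h4
  have h6 : d ≤ ⌊W⌋₊ := Nat.le_floor h5
  omega

/-- `sep` -/
theorem DD_sep (hA : 1 ≤ A) (hAQ : A ≤ Q) (hQH : Q ≤ H) (hY : Y ≤ H) (hF : F.Ok u P A (H / 2))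
    (hM : G.Marg) (hS : G.Sep0 u A (32 * H)) (p p' : PT G Q H δ)
    (hne : (DD G Q H δ).tr p ≠ (DD G Q H δ).tr p') (hl : (DD G Q H δ).lv p' ≤ (DD G Q H δ).lv p)
    (hm : (DD G Q H δ).Meet 0 Y p p') :
    4 * (A + 1) * 2 ^ (DD G Q H δ).lv p ≤ |(DD G Q H δ).sl p - (DD G Q H δ).sl p'| := by
  obtain ⟨x, hx1, hx2, hx3⟩ := hm
  obtain ⟨z, hz⟩ := p.2
  obtain ⟨z', hz'⟩ := p'.2
  have hl' : p'.1.2.1 ≤ p.1.2.1 := hl
  have hp : (0 : ℝ) < 2 ^ p.1.2.1 := by positivity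
  have hp' : (0 : ℝ) < 2 ^ p'.1.2.1 := by positivity
  have hnear := near_of G hl hx1 hx2 hz hz'
  have hc : ∀ y : ℝ, |y - z.1| ≤ 8 / 2 ^ p'.1.2.1 → q G.τ (G.lev p'.1.1) y = G.m p'.1.1 := by
    intro y hy
    refine hM p'.1.1 p'.1.2.1 z' (Et_sub G hz') y ?_
    have e : y - z'.1 = (y - z.1) + (z.1 - z'.1) := by ring
    rw [e]
    refine (abs_add_le _ _).trans ?_
    have e2 : (16 : ℝ) / 2 ^ p'.1.2.1 = 8 / 2 ^ p'.1.2.1 + 8 / 2 ^ p'.1.2.1 := by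
      rw [← add_div]; norm_num
    have e3 : (7 : ℝ) / 2 ^ p'.1.2.1 ≤ 8 / 2 ^ p'.1.2.1 := by gcongr; norm_num
    rw [e2]
    linarith
  have hlev : G.lev p'.1.1 ≤ p'.1.2.1 := H540.lev_le_of_cell hc
  show 4 * (A + 1) * 2 ^ p.1.2.1 ≤ |F.s p.1.1 - F.s p'.1.1|
  by_contra hlt
  rw [not_le] at hlt
  have h1 : |x - z.1| ≤ 1 / 2 ^ p.1.2.1 := q_abs (hx1.trans (Et_cell G hz).symm)
  have h2 : |(F.s p.1.1 - F.s p'.1.1) * (z.1 - x)| ≤ 4 * (A + 1) := by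
    rw [abs_mul, abs_sub_comm z.1 x]
    calc |F.s p.1.1 - F.s p'.1.1| * |x - z.1|
        ≤ (4 * (A + 1) * 2 ^ p.1.2.1) * (1 / 2 ^ p.1.2.1) := by gcongr
      _ = 4 * (A + 1) := by field_simp
  have h3 := Et_line G (by linarith) hz
  have h4 := Et_line G (by linarith) hz'
  have h5 := hF.line _ _ _ (Et_sub G hz')
  have h6 : F.off p'.1.1 z = (F.off p.1.1 z - (p.1.2.2.2 + 1 / 2) * ⌊Q⌋) +
      ((DD G Q H δ).ln p x - (DD G Q H δ).ln p' x) +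
      (F.s p.1.1 - F.s p'.1.1) * (z.1 - x) +
      (F.off p'.1.1 z' - (F.off p'.1.1 z' - (p'.1.2.2.2 + 1 / 2) * ⌊Q⌋)) := by
    rw [DD_ln, DD_ln]
    unfold R2.Tr.off
    ring
  have h7 : |F.off p'.1.1 z| ≤ 32 * H := by
    rw [h6]
    rw [abs_le] at *
    constructor <;> linarith
  have h8 := hS p.1.1 p'.1.1 p.1.2.1 hne (hlev.trans hl') z (Et_sub G hz)
    (hc z.1 (by rw [sub_self, abs_zero]; positivity)) h7
  have h9 := hF.slope _ _ _ (Et_sub G hz)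
  have h10 : |u z - F.s p'.1.1| ≤ |u z - F.s p.1.1| + |F.s p.1.1 - F.s p'.1.1| := by
    have e : u z - F.s p'.1.1 = (u z - F.s p.1.1) + (F.s p.1.1 - F.s p'.1.1) := by ring
    rw [e]
    exact abs_add_le _ _
  nlinarith

/-- offset cells of two tiles of one tree which are near -/
theorem off_near (hQ : 1 ≤ Q) {p p' : PT G Q H δ} (hi : p'.1.1 = p.1.1) {x : ℝ}
    {c : ℕ} (h : |(DD G Q H δ).ln p x - (DD G Q H δ).ln p' x| ≤ c * Q) :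
    |p'.1.2.2.2 - p.1.2.2.2| ≤ 2 * c := by
  rw [DD_ln, DD_ln, hi] at h
  have e : F.c p.1.1 + (p.1.2.2.2 + 1 / 2) * ⌊Q⌋ + F.s p.1.1 * x -
      (F.c p.1.1 + (p'.1.2.2.2 + 1 / 2) * ⌊Q⌋ + F.s p.1.1 * x) =
      ((p.1.2.2.2 : ℝ) - p'.1.2.2.2) * ⌊Q⌋ := by ring
  have hN : (0 : ℝ) < ⌊Q⌋ := by exact_mod_cast fl_pos hQ
  rw [e, abs_mul, abs_of_pos hN] at h
  have h1 := fl_half hQ
  have h2 : |(p.1.2.2.2 : ℝ) - p'.1.2.2.2| ≤ 2 * c := by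
    have h3 : |(p.1.2.2.2 : ℝ) - p'.1.2.2.2| * (Q / 2) ≤ c * Q :=
      (mul_le_mul_of_nonneg_left h1 (abs_nonneg _)).trans h
    have h4 : |(p.1.2.2.2 : ℝ) - p'.1.2.2.2| * Q ≤ (2 * c) * Q := by linarith
    exact le_of_mul_le_mul_right h4 (by linarith)
  have h3 : |(p'.1.2.2.2 : ℝ) - p.1.2.2.2| ≤ 2 * c := by rw [abs_sub_comm]; exact h2
  exact_mod_cast h3

theorem PT_ext {p p' : PT G Q H δ} (h1 : p.1.1 = p'.1.1) (h2 : p.1.2.1 = p'.1.2.1)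
    (h3 : p.1.2.2.1 = p'.1.2.2.1) (h4 : p.1.2.2.2 = p'.1.2.2.2) : p = p' :=
  Subtype.ext (Prod.ext h1 (Prod.ext h2 (Prod.ext h3 h4)))

/-- `same` -/
theorem DD_same (hA : 1 ≤ A) (hAQ : A ≤ Q) (hQH : Q ≤ H) (hQW : Q ≤ (2 : ℝ) ^ W)
    (hF : F.Ok u P A (H / 2)) (hS : G.Sep0 u A (32 * H)) (p : PT G Q H δ)
    (T : Finset (PT G Q H δ)) (hT : ∀ p' ∈ T, p' ≠ p ∧ (DD G Q H δ).tr p' = (DD G Q H δ).tr p ∧
      (DD G Q H δ).lv p' ≤ (DD G Q H δ).lv p ∧ ((DD G Q H δ).Meet 0 (5 * Q) p p' ∨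
        ((DD G Q H δ).lv p' = (DD G Q H δ).lv p ∧ (DD G Q H δ).Meet 0 (5 * Q) p' p))) :
    T.card ≤ (⌊W⌋₊ + 1) * 357 := by
  obtain ⟨z, hz⟩ := p.2
  have hQ : 1 ≤ Q := hA.trans hAQ
  have key : ∀ p' ∈ T, p.1.2.1 ≤ p'.1.2.1 + ⌊W⌋₊ ∧ |q 0 p'.1.2.1 z.1 - p'.1.2.2.1| ≤ 8 ∧
      |p'.1.2.2.2 - p.1.2.2.2| ≤ 10 := by
    intro p' hp'
    obtain ⟨-, h1, h2, h3⟩ := hT p' hp'
    have h1' : p'.1.1 = p.1.1 := h1
    have h2' : p'.1.2.1 ≤ p.1.2.1 := h2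
    obtain ⟨z', hz'⟩ := p'.2
    have hn : |z.1 - z'.1| ≤ 7 / 2 ^ p'.1.2.1 ∧ |p'.1.2.2.2 - p.1.2.2.2| ≤ 10 := by
      rcases h3 with h3 | ⟨h3, h4⟩
      · obtain ⟨x, hx1, hx2, hx3⟩ := h3
        exact ⟨near_of G h2 hx1 hx2 hz hz', off_near G (c := 5) hQ h1' (by exact_mod_cast hx3)⟩
      · obtain ⟨x, hx1, hx2, hx3⟩ := h4
        have e := near_of G h3.ge hx1 hx2 hz' hz
        have h3' : p'.1.2.1 = p.1.2.1 := h3
        rw [abs_sub_comm, ← h3'] at e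
        refine ⟨e, off_near G (c := 5) hQ h1' (x := x) ?_⟩
        rw [abs_sub_comm]
        exact_mod_cast hx3
    refine ⟨?_, ?_, hn.2⟩
    · have hb := Et_bad G hz'
      have hE := Et_sub G hz
      rw [h1'] at hb
      refine lev_win G hA hAQ hQH hQW hF hS hE hb h2' (hn.1.trans ?_)
      gcongr
      norm_num
    · rw [← Et_cell G hz']
      have := q_diff (N := 7) (by exact_mod_cast hn.1)
      exact_mod_cast this
  classical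
  let g : PT G Q H δ → ℕ × ℤ × ℤ := fun p' =>
    (p.1.2.1 - p'.1.2.1, q 0 p'.1.2.1 z.1 - p'.1.2.2.1, p'.1.2.2.2 - p.1.2.2.2)
  have hcard : T.card ≤ (Finset.range (⌊W⌋₊ + 1) ×ˢ (Finset.Icc (-8 : ℤ) 8 ×ˢ
      Finset.Icc (-10 : ℤ) 10)).card := by
    refine Finset.card_le_card_of_injOn g ?_ ?_
    · intro p' hp'
      obtain ⟨k1, k2, k3⟩ := key p' hp'
      have h2' : p'.1.2.1 ≤ p.1.2.1 := (hT p' hp').2.2.1
      rw [abs_le] at k2 k3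
      simp only [g, Finset.coe_product, mem_prod, Finset.mem_coe, Finset.mem_range, Finset.mem_Icc]
      refine ⟨by omega, ⟨by omega, by omega⟩, ⟨by omega, by omega⟩⟩
    · intro p1 hp1 p2 hp2 he
      have e1 : p1.1.1 = p.1.1 := (hT p1 hp1).2.1
      have e2 : p2.1.1 = p.1.1 := (hT p2 hp2).2.1
      have l1 : p1.1.2.1 ≤ p.1.2.1 := (hT p1 hp1).2.2.1
      have l2 : p2.1.2.1 ≤ p.1.2.1 := (hT p2 hp2).2.2.1
      simp only [g, Prod.mk.injEq] at he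
      obtain ⟨a1, a2, a3⟩ := he
      have a4 : p1.1.2.1 = p2.1.2.1 := by omega
      rw [a4] at a2
      exact PT_ext G (e1.trans e2.symm) a4 (by omega) (by omega)
  refine hcard.trans (le_of_eq ?_)
  rw [Finset.card_product, Finset.card_product, Finset.card_range, Int.card_Icc, Int.card_Icc]
  norm_num
  rfl

/-- `thick` -/
theorem DD_thick (hQ : 1 ≤ Q) (p : PT G Q H δ) (i : F.ι) (k : ℤ)
    (T : Finset (PT G Q H δ)) (hT : ∀ p' ∈ T, (DD G Q H δ).tr p' = i ∧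
      (DD G Q H δ).lv p' = (DD G Q H δ).lv p ∧ (DD G Q H δ).cl p' = k ∧
      ((DD G Q H δ).Meet 0 (5 * Q) p p' ∨ (DD G Q H δ).Meet 0 (5 * Q) p' p) ∧
      |(DD G Q H δ).sl p - (DD G Q H δ).sl p'| < Q * 2 ^ (DD G Q H δ).lv p) :
    T.card ≤ 81 := by
  classical
  have hp : (0 : ℝ) < 2 ^ p.1.2.1 := by positivity
  have key : ∀ p' ∈ T, ∃ x, |x - (DD G Q H δ).L 0 p| ≤ 5 / 2 ^ p.1.2.1 ∧
      |(DD G Q H δ).ln p x - (DD G Q H δ).ln p' x| ≤ 5 * Q := by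
    intro p' hp'
    obtain ⟨-, h2, -, h3, -⟩ := hT p' hp'
    rcases h3 with ⟨x, hx1, hx2, hx3⟩ | ⟨x, hx1, hx2, hx3⟩
    · refine ⟨x, ?_, hx3⟩
      have a1 : |x - (0 + p.1.2.2.1 / 2 ^ p.1.2.1)| ≤ 1 / 2 ^ p.1.2.1 := q_left hx1
      refine a1.trans ?_
      gcongr
      norm_num
    · exact ⟨x, hx2, by rw [abs_sub_comm]; exact hx3⟩
  rcases T.eq_empty_or_nonempty with rfl | ⟨p0, hp0⟩
  · simp
  obtain ⟨x0, h01, h02⟩ := key p0 hp0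
  have hs0 : |F.s p.1.1 - F.s p0.1.1| < Q * 2 ^ p.1.2.1 := (hT p0 hp0).2.2.2.2
  have hi0 : p0.1.1 = i := (hT p0 hp0).1
  have key2 : ∀ p' ∈ T, |p'.1.2.2.2 - p0.1.2.2.2| ≤ 40 := by
    intro p' hp'
    obtain ⟨x, h1, h2⟩ := key p' hp'
    have hi : p'.1.1 = i := (hT p' hp').1
    have h3 : |x - x0| ≤ 10 / 2 ^ p.1.2.1 := by
      have e : (10 : ℝ) / 2 ^ p.1.2.1 = 5 / 2 ^ p.1.2.1 + 5 / 2 ^ p.1.2.1 := by
        rw [← add_div]; norm_num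
      rw [e]
      rw [abs_le] at *
      constructor <;> linarith
    have h4 : |(F.s p.1.1 - F.s p0.1.1) * (x0 - x)| ≤ 10 * Q := by
      rw [abs_mul, abs_sub_comm x0 x]
      calc |F.s p.1.1 - F.s p0.1.1| * |x - x0|
          ≤ (Q * 2 ^ p.1.2.1) * (10 / 2 ^ p.1.2.1) := by gcongr
        _ = 10 * Q := by field_simp
    refine off_near G (c := 20) hQ (hi.trans hi0.symm) (x := x) ?_
    have e : (DD G Q H δ).ln p0 x - (DD G Q H δ).ln p' x =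
        ((DD G Q H δ).ln p x - (DD G Q H δ).ln p' x) -
        ((DD G Q H δ).ln p x0 - (DD G Q H δ).ln p0 x0) +
        (F.s p.1.1 - F.s p0.1.1) * (x0 - x) := by
      rw [DD_ln, DD_ln, DD_ln, DD_ln, DD_ln]
      ring
    rw [e]
    push_cast
    rw [abs_le] at *
    constructor <;> linarith
  have hcard : T.card ≤ (Finset.Icc (-40 : ℤ) 40).card := by
    refine Finset.card_le_card_of_injOn (fun p' => p'.1.2.2.2 - p0.1.2.2.2) ?_ ?_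
    · intro p' hp'
      have := key2 p' hp'
      rw [abs_le] at this
      simp only [Finset.mem_coe, Finset.mem_Icc]
      exact this
    · intro p1 hp1 p2 hp2 he
      have he' : p1.1.2.2.2 - p0.1.2.2.2 = p2.1.2.2.2 - p0.1.2.2.2 := he
      have l : p1.1.2.1 = p2.1.2.1 := ((hT p1 hp1).2.1).trans ((hT p2 hp2).2.1).symm
      have c : p1.1.2.2.1 = p2.1.2.2.1 := ((hT p1 hp1).2.2.1).trans ((hT p2 hp2).2.2.1).symm
      exact PT_ext G (((hT p1 hp1).1).trans ((hT p2 hp2).1).symm) l c (by omega)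
  refine hcard.trans (le_of_eq ?_)
  rw [Int.card_Icc]
  norm_num
  rfl

/-- `ovl` -/
theorem DD_ovl (hA : 1 ≤ A) (hAQ : A ≤ Q) (hQH : Q ≤ H) (hQW : Q ≤ (2 : ℝ) ^ W)
    (hF : F.Ok u P A (H / 2)) (hS : G.Sep0 u A (32 * H)) (z : ℝ × ℝ)
    (T : Finset (PT G Q H δ)) (hT : ∀ p ∈ T, z ∈ (DD G Q H δ).E p) : T.card ≤ ⌊W⌋₊ + 1 := by
  classical
  rcases T.eq_empty_or_nonempty with rfl | hne
  · simp
  obtain ⟨p0, hp0, hmin⟩ := T.exists_min_image (fun p => p.1.2.1) hne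
  have htr : ∀ p ∈ T, p.1.1 = p0.1.1 := fun p hp =>
    hF.uniq _ _ _ _ z (Et_sub G (hT p hp)) (Et_sub G (hT p0 hp0))
  have hcard : T.card ≤ (Finset.range (⌊W⌋₊ + 1)).card := by
    refine Finset.card_le_card_of_injOn (fun p => p.1.2.1 - p0.1.2.1) ?_ ?_
    · intro p hp
      have h1 := Et_sub G (hT p hp)
      have h2 := Et_bad G (hT p0 hp0)
      rw [← htr p hp] at h2
      have h3 := lev_win G hA hAQ hQH hQW hF hS h1 h2 (hmin p hp)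
        (by rw [sub_self, abs_zero]; positivity)
      simp only [Finset.coe_range, mem_Iio]
      have h4 := hmin p hp
      omega
    · intro p1 hp1 p2 hp2 he
      have he' : p1.1.2.1 - p0.1.2.1 = p2.1.2.1 - p0.1.2.1 := he
      have m1 := hmin p1 hp1
      have m2 := hmin p2 hp2
      have l : p1.1.2.1 = p2.1.2.1 := by omega
      have i' : p1.1.1 = p2.1.1 := (htr p1 hp1).trans (htr p2 hp2).symm
      have c1 := Et_cell G (hT p1 hp1)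
      have c2 := Et_cell G (hT p2 hp2)
      have o1 := Et_off G (hT p1 hp1)
      have o2 := Et_off G (hT p2 hp2)
      rw [l] at c1
      rw [i'] at o1
      exact PT_ext G i' l (c1.symm.trans c2) (o1.symm.trans o2)
  rwa [Finset.card_range] at hcard

/-- `dens` -/
theorem DD_dens (p : PT G Q H δ) : ∃ b B : ℝ, 1 / 2 ≤ B ∧
    ENNReal.ofReal (2 * B * (δ / 2 ^ (DD G Q H δ).lv p)) ≤
    volume ((DD G Q H δ).E p ∩ {z : ℝ × ℝ | |z.2 - b - (DD G Q H δ).sl p * z.1| ≤ B}) := by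
  obtain ⟨z0, hz0⟩ := p.2
  have hd := hz0.1.2
  refine ⟨F.c p.1.1 + ⌊F.off p.1.1 z0⌋ + 1 / 2, 1 / 2, le_rfl, ?_⟩
  have e : 2 * (1 / 2 : ℝ) * (δ / 2 ^ (DD G Q H δ).lv p) = δ / 2 ^ p.1.2.1 := by
    show 2 * (1 / 2 : ℝ) * (δ / 2 ^ p.1.2.1) = δ / 2 ^ p.1.2.1
    ring
  rw [e]
  refine hd.trans (measure_mono ?_)
  rintro z ⟨h1, h2, h3⟩
  have h3' : ⌊F.off p.1.1 z⌋ = ⌊F.off p.1.1 z0⌋ := h3
  have h2' : q 0 p.1.2.1 z.1 = q 0 p.1.2.1 z0.1 := h2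
  refine ⟨⟨⟨h1, ?_⟩, ?_⟩, ?_⟩
  · have e2 : (G.bad Q H).tile p.1.1 p.1.2.1 z = (G.bad Q H).tile p.1.1 p.1.2.1 z0 := by
      ext y
      show (q 0 p.1.2.1 y.1 = q 0 p.1.2.1 z.1 ∧ ⌊F.off p.1.1 y⌋ = ⌊F.off p.1.1 z⌋) ↔
        (q 0 p.1.2.1 y.1 = q 0 p.1.2.1 z0.1 ∧ ⌊F.off p.1.1 y⌋ = ⌊F.off p.1.1 z0⌋)
      rw [h2', h3']
    rw [e2]
    exact hd
  · rw [← hz0.2]
    unfold tx
    rw [h2', h3']
  · show |z.2 - (F.c p.1.1 + ⌊F.off p.1.1 z0⌋ + 1 / 2) - F.s p.1.1 * z.1| ≤ 1 / 2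
    have a1 : (⌊F.off p.1.1 z⌋ : ℝ) ≤ F.off p.1.1 z := Int.floor_le _
    have a2 : F.off p.1.1 z < ⌊F.off p.1.1 z⌋ + 1 := Int.lt_floor_add_one _
    rw [h3'] at a1 a2
    have e3 : z.2 - (F.c p.1.1 + ⌊F.off p.1.1 z0⌋ + 1 / 2) - F.s p.1.1 * z.1 =
        F.off p.1.1 z - ⌊F.off p.1.1 z0⌋ - 1 / 2 := by
      unfold R2.Tr.off
      ring
    rw [e3, abs_le]
    constructor <;> linarith

/-- The hypotheses of the abstract theorem. -/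
theorem hyp {m w : ℕ} (hu : Measurable u) (hε : 0 ≤ ε)
    (hlip : ∀ x y y', |u (x, y) - u (x, y')| ≤ ε * |y - y'|) (hA : 1 ≤ A) (hAQ : A ≤ Q)
    (hQW : Q ≤ (2 : ℝ) ^ W) (hδ : 0 < δ) (hδ1 : δ ≤ 1) (hQH : Q ≤ H)
    (hY1 : 2 * (Q + ((2 * m : ℕ) + 1) * (5 * Q + 9 * Q)) ≤ Y) (hY2 : Y ≤ H) (hH : ε * H ≤ 1)
    (hw : 2 * Q ≤ 2 ^ w)
    (hF : F.Ok u P A (H / 2)) (hM : G.Marg) (hS : G.Sep0 u A (32 * H)) :
    Hyp (DD G Q H δ) u 0 ε A Q δ Q (5 * Q) Y (⌊W⌋₊ + 1) ((⌊W⌋₊ + 1) * 357) 81 w (2 * m) := by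
  have hQ : 1 ≤ Q := hA.trans hAQ
  exact
  { meas_u := hu
    meas := fun p => Et_meas G (by linarith) hF p.1
    cell := fun p z hz => Et_cell G hz
    line := fun p z hz => by
      rw [DD_off]
      have := Et_line G hQ hz
      linarith
    slope := fun p z hz => hF.slope _ _ z (Et_sub G hz)
    dens := DD_dens G
    sep := DD_sep G hA hAQ hQH hY2 hF hM hS
    same := DD_same G hA hAQ hQH hQW hF hS
    thick := DD_thick G hQ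
    ovl := DD_ovl G hA hAQ hQH hQW hF hS
    lip := hlip
    e_nonneg := hε
    eY := (mul_le_mul_of_nonneg_left hY2 hε).trans hH
    A_nonneg := by linarith
    h_nonneg := by linarith
    Q_one := hQ
    η_nonneg := by linarith
    κ_pos := hδ
    κ_le := hδ1
    Y_ge := hY1
    hw := hw }

end Vale.Agent.P112.H566
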